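import Vale.Agent.P227.Planar
import Vale.Agent.P245.PL

/-!
The planar logarithmic Brunn-Minkowski inequality and its extension to pairs of bodies with
`n - 2` common mirror symmetries.
-/

open MeasureTheory Set Filter Finset Matrix
open scoped Topology ENNReal

namespace Vale.Agent.P227

section Supp

variable {n : ℕ} {K : Set (Fin n → ℝ)}

/-- The support function. -/
noncomputable def supp (K : Set (Fin n → ℝ)) (u : Fin n → ℝ) : ℝ :=
  sSup ((fun x => x ⬝ᵥ u) '' K)

/-- The Wulff body of `supp K ^ a * supp L ^ b`. -/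
def logComb (a b : ℝ) (K L : Set (Fin n → ℝ)) : Set (Fin n → ℝ) :=
  {x | ∀ u, x ⬝ᵥ u ≤ supp K u ^ a * supp L u ^ b}

lemma continuous_dot (u : Fin n → ℝ) : Continuous fun x : Fin n → ℝ => x ⬝ᵥ u := by
  simp only [dotProduct]; fun_prop

lemma supp_le (hK : IsCompact K) {x : Fin n → ℝ} (hx : x ∈ K) (u : Fin n → ℝ) :
    x ⬝ᵥ u ≤ supp K u :=
  le_csSup (hK.image (continuous_dot u)).bddAbove (mem_image_of_mem _ hx)

lemma exists_supp (hK : IsCompact K) (hne : K.Nonempty) (u : Fin n → ℝ) :
    ∃ x ∈ K, x ⬝ᵥ u = supp K u :=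
  (hK.image (continuous_dot u)).sSup_mem (hne.image _)

lemma abs_dot_le (hK : IsCompact K) (hs : ∀ x ∈ K, -x ∈ K) {x : Fin n → ℝ} (hx : x ∈ K)
    (u : Fin n → ℝ) : |x ⬝ᵥ u| ≤ supp K u := by
  refine abs_le.2 ⟨?_, supp_le hK hx u⟩
  have := supp_le hK (hs x hx) u
  rw [neg_dotProduct] at this
  linarith

lemma supp_nonneg (hK : IsCompact K) (hs : ∀ x ∈ K, -x ∈ K) (hne : K.Nonempty) (u : Fin n → ℝ) :
    0 ≤ supp K u := by
  obtain ⟨x, hx⟩ := hne
  exact (abs_nonneg _).trans (abs_dot_le hK hs hx u)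

lemma supp_neg (hs : ∀ x ∈ K, -x ∈ K) (u : Fin n → ℝ) : supp K (-u) = supp K u := by
  refine congrArg sSup (Set.ext fun r => ⟨?_, ?_⟩) <;> rintro ⟨x, hx, rfl⟩ <;>
    exact ⟨-x, hs x hx, by simp⟩

lemma supp_continuous (hK : IsCompact K) : Continuous (supp K) :=
  hK.continuous_sSup (f := fun u x => x ⬝ᵥ u) (by simp only [dotProduct]; fun_prop)

lemma supp_pos (hK : IsCompact K) (hs : ∀ x ∈ K, -x ∈ K) (hv : volume K ≠ 0)
    {u : Fin n → ℝ} (hu : u ≠ 0) : 0 < supp K u := by
  by_contra h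
  push Not at h
  refine hv (measure_mono_null (t := ((dotProductBilin ℝ ℝ).flip u).ker)
    (fun x hx => ?_) (Measure.addHaar_submodule _ _ ?_))
  · have := (abs_dot_le hK hs hx u).trans h
    simpa using abs_nonpos_iff.1 this
  · intro htop
    have : u ⬝ᵥ u = 0 := by
      have h2 : u ∈ ((dotProductBilin ℝ ℝ).flip u).ker := htop ▸ Submodule.mem_top
      simpa using h2
    exact hu (dotProduct_self_eq_zero.1 this)

lemma isClosed_logComb (a b : ℝ) (K L : Set (Fin n → ℝ)) : IsClosed (logComb a b K L) := by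
  have e : logComb a b K L = ⋂ u, {x | x ⬝ᵥ u ≤ supp K u ^ a * supp L u ^ b} := by
    ext x; simp [logComb]
  rw [e]
  exact isClosed_iInter fun u => isClosed_le (continuous_dot u) continuous_const

lemma neg_mem_logComb {a b : ℝ} {K L : Set (Fin n → ℝ)} (hK : ∀ x ∈ K, -x ∈ K)
    (hL : ∀ x ∈ L, -x ∈ L) : ∀ x ∈ logComb a b K L, -x ∈ logComb a b K L := by
  intro x hx u
  have := hx (-u)
  rw [supp_neg hK, supp_neg hL] at this
  simpa using this

end Supp

/-- The inequality for symmetric compact sets in the plane. -/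
lemma planar {K L : Set (Fin 2 → ℝ)} (hK : IsCompact K) (hL : IsCompact L)
    (hKs : ∀ x ∈ K, -x ∈ K) (hLs : ∀ x ∈ L, -x ∈ L) {a b : ℝ} (ha : 0 < a) (hb : 0 < b)
    (hab : a + b = 1) :
    volume K ^ a * volume L ^ b ≤ volume (logComb a b K L) := by
  rcases eq_or_ne (volume K) 0 with h0 | hvK
  · simp [h0, ENNReal.zero_rpow_of_pos ha]
  rcases eq_or_ne (volume L) 0 with h0 | hvL
  · simp [h0, ENNReal.zero_rpow_of_pos hb]
  have hKne : K.Nonempty := nonempty_of_measure_ne_zero hvK
  have hLne : L.Nonempty := nonempty_of_measure_ne_zero hvL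
  set D : ℕ → Fin 2 → ℝ := TopologicalSpace.denseSeq (Fin 2 → ℝ) with hD
  let U : ℕ → Fin 2 → ℝ := fun k => match k with
    | 0 => ![1, 0]
    | 1 => ![0, 1]
    | k + 2 => if D k = 0 then ![1, 0] else D k
  have hU : ∀ k, U k ≠ 0 := by
    have h1 : (![1, 0] : Fin 2 → ℝ) ≠ 0 := fun h => by simpa using congrFun h 0
    have h2 : (![0, 1] : Fin 2 → ℝ) ≠ 0 := fun h => by simpa using congrFun h 1
    intro k
    match k with
    | 0 => exact h1
    | 1 => exact h2
    | k + 2 =>
      simp only [U]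
      split
      · exact h1
      · assumption
  set f : (Fin 2 → ℝ) → ℝ := fun u => supp K u ^ a * supp L u ^ b with hf
  have hfc : Continuous f :=
    ((supp_continuous hK).rpow_const fun _ => Or.inr ha.le).mul
      ((supp_continuous hL).rpow_const fun _ => Or.inr hb.le)
  have hfn : ∀ u, f (-u) = f u := fun u => by simp only [hf, supp_neg hKs, supp_neg hLs]
  have hf0 : ∀ u, 0 ≤ f u := fun u => mul_nonneg
    (Real.rpow_nonneg (supp_nonneg hK hKs hKne u) _) (Real.rpow_nonneg (supp_nonneg hL hLs hLne u) _)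
  let S : ℕ → Set (Fin 2 → ℝ) := fun n => {x | ∀ k : Fin (n + 2), |x ⬝ᵥ U k| ≤ f (U k)}
  have hS : ∀ n, IsClosed (S n) := by
    intro n
    have e : S n = ⋂ k : Fin (n + 2), {x | |x ⬝ᵥ U k| ≤ f (U k)} := by ext x; simp [S]
    rw [e]
    exact isClosed_iInter fun k => isClosed_le (continuous_dot _).abs continuous_const
  have hinter : ⋂ n, S n = logComb a b K L := by
    ext x
    simp only [Set.mem_iInter, S]
    constructor
    · intro h u
      have hcl : IsClosed {u : Fin 2 → ℝ | |x ⬝ᵥ u| ≤ f u} :=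
        isClosed_le (by simp only [dotProduct]; fun_prop) hfc
      have hall : ∀ u, |x ⬝ᵥ u| ≤ f u := fun u => by
        refine (TopologicalSpace.denseRange_denseSeq (Fin 2 → ℝ)).induction_on u hcl fun k => ?_
        rcases eq_or_ne (D k) 0 with h0 | h0
        · rw [← hD, h0]; simpa using hf0 0
        · have h2 := h (k + 1) ⟨k + 2, by omega⟩
          simp only [U, h0, ↓reduceIte] at h2
          exact h2
      exact (le_abs_self _).trans (hall u)
    · intro h n k
      refine abs_le.2 ⟨?_, h _⟩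
      have := h (-U k)
      rw [dotProduct_neg] at this
      change -(x ⬝ᵥ U k) ≤ f (-U k) at this
      rw [hfn] at this
      linarith
  -- every finite stage
  have hstage : ∀ n, volume K ^ a * volume L ^ b ≤ volume (S n) := by
    intro n
    set A : Fin (n + 2) → ℝ := fun k => U k 0 with hA
    set B : Fin (n + 2) → ℝ := fun k => U k 1 with hB
    have hsp : ∀ i, ∃ j, A i * B j - A j * B i ≠ 0 := by
      intro i
      have hU0 : U 0 = ![1, 0] := rfl
      have hU1 : U 1 = ![0, 1] := rfl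
      by_cases h : A i = 0
      · refine ⟨⟨0, by omega⟩, ?_⟩
        have h2 : B i ≠ 0 := fun h2 => hU i (funext (Fin.forall_fin_two.2 ⟨h, h2⟩))
        simpa [hA, hB, hU0] using h2
      · refine ⟨⟨1, by omega⟩, ?_⟩
        simpa [hA, hB, hU1] using h
    set w : Fin (n + 2) → ℝ := fun k => supp K (U k) with hw
    set v : Fin (n + 2) → ℝ := fun k => Real.log (supp L (U k) / supp K (U k)) with hv
    have hwp : ∀ i, 0 < w i := fun i => supp_pos hK hKs hvK (hU i)
    have hlp : ∀ i : Fin (n + 2), 0 < supp L (U i) := fun i => supp_pos hL hLs hvL (hU i)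
    have hpath : ∀ t i, path w v t i = supp K (U i) ^ (1 - t) * supp L (U i) ^ t := by
      intro t i
      simp only [path, hw, hv]
      rw [Real.rpow_sub (hwp i), Real.rpow_one, mul_comm t, ← Real.rpow_def_of_pos
        (div_pos (hlp i) (hwp i)), Real.div_rpow (hlp i).le (hwp i).le]
      simp only [hw]
      ring
    have hmp := volume_preserving_finTwoArrow ℝ
    have hvolS : ∀ t, ENNReal.ofReal (pathArea A B w v t) =
        volume {x : Fin 2 → ℝ | ∀ k : Fin (n + 2), |x ⬝ᵥ U k| ≤ path w v t k} := by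
      intro t
      obtain ⟨j, hj⟩ := hsp 0
      rw [pathArea, ENNReal.ofReal_toReal (strips_bounded A B _ (i := (0 : Fin (n + 2))) (j := j) hj).measure_lt_top.ne,
        ← hmp.measure_preimage (isClosed_strips A B _).measurableSet.nullMeasurableSet]
      congr 1
      ext x
      simp [strips, hA, hB, dotProduct, Fin.sum_univ_two, mul_comm]
    have hKsub : volume K ≤ ENNReal.ofReal (pathArea A B w v 0) := by
      rw [hvolS]
      exact measure_mono fun x hx k => by rw [hpath]; simpa using abs_dot_le hK hKs hx (U k)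
    have hLsub : volume L ≤ ENNReal.ofReal (pathArea A B w v 1) := by
      rw [hvolS]
      exact measure_mono fun x hx k => by rw [hpath]; simpa using abs_dot_le hL hLs hx (U k)
    have hb1 : b < 1 := by linarith
    obtain ⟨j, hj⟩ := hsp 0
    have hp := fun t => pathArea_pos A B v (i := (0 : Fin (n + 2))) (j := j) hj hwp t
    have hlc := strips_log_concave A B hsp (v := v) hwp hb hb1
    rw [show 1 - b = a by linarith, ← Real.log_rpow (hp 0), ← Real.log_rpow (hp 1),
      ← Real.log_mul (Real.rpow_pos_of_pos (hp 0) a).ne' (Real.rpow_pos_of_pos (hp 1) b).ne',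
      Real.log_le_log_iff (mul_pos (Real.rpow_pos_of_pos (hp 0) a) (Real.rpow_pos_of_pos (hp 1) b))
        (hp b)] at hlc
    calc volume K ^ a * volume L ^ b
        ≤ ENNReal.ofReal (pathArea A B w v 0) ^ a * ENNReal.ofReal (pathArea A B w v 1) ^ b := by
          gcongr
      _ = ENNReal.ofReal (pathArea A B w v 0 ^ a * pathArea A B w v 1 ^ b) := by
          rw [ENNReal.ofReal_rpow_of_pos (hp 0), ENNReal.ofReal_rpow_of_pos (hp 1),
            ENNReal.ofReal_mul (Real.rpow_pos_of_pos (hp 0) a).le]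
      _ ≤ ENNReal.ofReal (pathArea A B w v b) := ENNReal.ofReal_le_ofReal hlc
      _ = volume (S n) := by
          rw [hvolS]
          simp only [S, hpath, hf, show 1 - b = a by linarith]
  rw [← hinter]
  have hanti : Antitone S := fun i j hij x hx k => hx ⟨k, by omega⟩
  refine ge_of_tendsto' (tendsto_measure_iInter_atTop
    (fun n => (hS n).measurableSet.nullMeasurableSet) hanti ⟨0, ?_⟩) hstage
  refine (IsCompact.measure_lt_top (μ := volume) ?_).ne
  refine Metric.isCompact_of_isClosed_isBounded (hS 0)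
    ((Metric.isBounded_iff_subset_closedBall 0).2 ⟨f (U 0) + f (U 1), fun x hx => ?_⟩)
  rw [Metric.mem_closedBall, dist_zero_right, pi_norm_le_iff_of_nonneg (add_nonneg (hf0 _) (hf0 _))]
  refine Fin.forall_fin_two.2 ⟨?_, ?_⟩
  · have := hx ⟨0, by omega⟩
    simp [U, dotProduct, Fin.sum_univ_two] at this ⊢
    linarith [hf0 ![0, 1]]
  · have := hx ⟨1, by omega⟩
    simp [U, dotProduct, Fin.sum_univ_two] at this ⊢
    linarith [hf0 ![1, 0]]

lemma rpow_superadd {a b : ℝ} (ha : 0 < a) (hb : 0 < b) (hab : a + b = 1) {p q c d : ℝ}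
    (hp : 0 ≤ p) (hq : 0 ≤ q) (hc : 0 ≤ c) (hd : 0 ≤ d) :
    p ^ a * q ^ b + c ^ a * d ^ b ≤ (p + c) ^ a * (q + d) ^ b := by
  rcases (add_nonneg hp hc).eq_or_lt with h | h
  · obtain ⟨rfl, rfl⟩ : p = 0 ∧ c = 0 := ⟨by linarith, by linarith⟩
    simp [Real.zero_rpow ha.ne']
  rcases (add_nonneg hq hd).eq_or_lt with h' | h'
  · obtain ⟨rfl, rfl⟩ : q = 0 ∧ d = 0 := ⟨by linarith, by linarith⟩
    simp [Real.zero_rpow hb.ne']
  have key : ∀ x y : ℝ, 0 ≤ x → 0 ≤ y → x ^ a * y ^ b ≤
      (p + c) ^ a * (q + d) ^ b * (a * (x / (p + c)) + b * (y / (q + d))) := by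
    intro x y hx hy
    have := mul_le_mul_of_nonneg_left (Real.geom_mean_le_arith_mean2_weighted ha.le hb.le
      (div_nonneg hx h.le) (div_nonneg hy h'.le) hab)
      (mul_nonneg (Real.rpow_nonneg h.le a) (Real.rpow_nonneg h'.le b))
    rw [Real.div_rpow hx h.le, Real.div_rpow hy h'.le] at this
    refine le_trans (le_of_eq ?_) this
    field_simp [(Real.rpow_pos_of_pos h a).ne', (Real.rpow_pos_of_pos h' b).ne']
  refine (add_le_add (key p q hp hq) (key c d hc hd)).trans (le_of_eq ?_)
  rw [← mul_add]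
  have : a * (p / (p + c)) + b * (q / (q + d)) + (a * (c / (p + c)) + b * (d / (q + d))) = 1 := by
    field_simp
    linear_combination (p + c) * (q + d) * hab
  rw [this, mul_one]

section Slices

variable {n : ℕ}

/-- The slice at first coordinate `z`. -/
def sec (S : Set (Fin (n + 1) → ℝ)) (z : ℝ) : Set (Fin n → ℝ) :=
  {y | (Fin.cons z y : Fin (n + 1) → ℝ) ∈ S}

lemma mem_sec {S : Set (Fin (n + 1) → ℝ)} {z : ℝ} {y : Fin n → ℝ} :
    y ∈ sec S z ↔ (Fin.cons z y : Fin (n + 1) → ℝ) ∈ S := Iff.rfl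

lemma volume_slices {S : Set (Fin (n + 1) → ℝ)} (hS : MeasurableSet S) :
    volume S = ∫⁻ z : ℝ, volume (sec S z) ∧
      Measurable fun z : ℝ => volume (sec S z) := by
  set e := MeasurableEquiv.piFinSuccAbove (fun _ : Fin (n + 1) => ℝ) 0 with he
  have hmp := volume_preserving_piFinSuccAbove (fun _ : Fin (n + 1) => ℝ) 0
  have hpre : ∀ z : ℝ, Prod.mk z ⁻¹' (e.symm ⁻¹' S) = (sec S z) := by
    intro z
    ext y
    simp [he, sec, MeasurableEquiv.piFinSuccAbove_symm_apply, Fin.insertNthEquiv]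
  have hm : MeasurableSet (e.symm ⁻¹' S) := e.symm.measurable hS
  refine ⟨?_, ?_⟩
  · rw [← (hmp.symm e).measure_preimage hS.nullMeasurableSet, Measure.volume_eq_prod,
      Measure.prod_apply hm]
    simp only [hpre]
  · have := measurable_measure_prodMk_left (ν := (volume : Measure (Fin n → ℝ))) hm
    simp only [hpre] at this
    exact this

lemma volume_half {S : Set (Fin (n + 1) → ℝ)} (hS : MeasurableSet S) (hs : ∀ x ∈ S, -x ∈ S) :
    volume S = 2 * ∫⁻ z in Ioi (0:ℝ), volume (sec S z) := by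
  obtain ⟨h, -⟩ := volume_slices hS
  set g : ℝ → ℝ≥0∞ := fun z => volume (sec S z) with hg
  have hc : ∀ (z : ℝ) (y : Fin n → ℝ), (Fin.cons (-z) (-y) : Fin (n + 1) → ℝ) = -Fin.cons z y := by
    intro z y
    funext i
    refine Fin.cases ?_ (fun j => ?_) i <;> simp
  have heven : ∀ z, g (-z) = g z := by
    intro z
    have e : (sec S (-z)) = -(sec S z) := by
      ext y
      simp only [mem_sec, Set.mem_neg]
      constructor
      · intro hy
        have h2 := hs _ hy
        rw [← hc, neg_neg] at h2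
        exact h2
      · intro hy
        have h2 := hs _ hy
        rw [← hc, neg_neg] at h2
        exact h2
    simp only [hg, e, Measure.measure_neg]
  rw [h, ← lintegral_add_compl g (measurableSet_Ioi (a := (0:ℝ))), Set.compl_Ioi, two_mul]
  congr 1
  rw [setLIntegral_congr Iio_ae_eq_Iic.symm,
    ← (Measure.measurePreserving_neg (volume : Measure ℝ)).setLIntegral_comp_preimage_emb
      (MeasurableEquiv.neg ℝ).measurableEmbedding]
  simp [heven]

lemma lintegral_exp (g : ℝ → ℝ≥0∞) :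
    ∫⁻ z in Ioi (0:ℝ), g z = ∫⁻ s : ℝ, ENNReal.ofReal (Real.exp s) * g (Real.exp s) := by
  have h := lintegral_image_eq_lintegral_abs_deriv_mul (s := univ) (f := Real.exp)
    (f' := Real.exp) MeasurableSet.univ (fun x _ => (Real.hasDerivAt_exp x).hasDerivWithinAt)
    Real.exp_injective.injOn g
  rw [image_univ, Real.range_exp, Measure.restrict_univ] at h
  simp only [abs_of_pos (Real.exp_pos _)] at h
  exact h

/-- Change the sign of one coordinate. -/
def flipCoord (i : Fin n) (x : Fin n → ℝ) : Fin n → ℝ := Function.update x i (-x i)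

end Slices

/-- Slices orthogonal to a common mirror reduce the dimension. -/
theorem mirror_induction : ∀ (m : ℕ) (K L : Set (Fin (m + 2) → ℝ)), IsCompact K → IsCompact L →
    (∀ x ∈ K, -x ∈ K) → (∀ x ∈ L, -x ∈ L) →
    (∀ i : Fin (m + 2), (i : ℕ) < m →
      (∀ x ∈ K, flipCoord i x ∈ K) ∧ ∀ x ∈ L, flipCoord i x ∈ L) →
    ∀ a b : ℝ, 0 < a → 0 < b → a + b = 1 →
    volume K ^ a * volume L ^ b ≤ volume (logComb a b K L) := by
  intro m
  induction m with
  | zero => exact fun K L hK hL hKs hLs _ a b ha hb hab => planar hK hL hKs hLs ha hb hab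
  | succ m ih =>
    intro K L hK hL hKs hLs hflip a b ha hb hab
    have h0 := hflip 0 (by simp)
    -- facts about slices
    have slice : ∀ (M : Set (Fin (m + 1 + 2) → ℝ)), IsCompact M → (∀ x ∈ M, -x ∈ M) →
        (∀ i : Fin (m + 1 + 2), (i : ℕ) < m + 1 → ∀ x ∈ M, flipCoord i x ∈ M) → ∀ z : ℝ,
        IsCompact (sec M z) ∧
        (∀ y ∈ (sec M z), -y ∈ sec M z) ∧
        (∀ i : Fin (m + 2), (i : ℕ) < m → ∀ y ∈ (sec M z),
          flipCoord i y ∈ sec M z) ∧
        ∀ y ∈ (sec M z), (Fin.cons (-z) y : Fin (m + 3) → ℝ) ∈ M := by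
      intro M hM hMs hMf z
      have hflip0 : ∀ y : Fin (m + 2) → ℝ, flipCoord 0 (Fin.cons z y) = Fin.cons (-z) y := by
        intro y
        simp [flipCoord, Fin.update_cons_zero]
      have hf0 : ∀ y ∈ (sec M z),
          (Fin.cons (-z) y : Fin (m + 3) → ℝ) ∈ M := fun y hy => by
        have := hMf 0 (by simp) _ hy
        rwa [hflip0] at this
      refine ⟨?_, fun y hy => ?_, fun i hi y hy => ?_, hf0⟩
      · refine (hM.image (f := fun x => Fin.tail x) (by
          unfold Fin.tail; fun_prop)).of_isClosed_subset (hM.isClosed.preimage (by fun_prop)) ?_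
        exact fun y hy => ⟨Fin.cons z y, hy, Fin.tail_cons (α := fun _ => ℝ) z y⟩
      · have := hMs _ (hf0 y hy)
        refine (congrArg (· ∈ M) ?_).mp this
        funext i
        refine Fin.cases ?_ (fun j => ?_) i <;> simp
      · have := hMf i.succ (by simpa using hi) _ hy
        refine (congrArg (· ∈ M) ?_).mp this
        simp [flipCoord, Fin.cons_update]
    have sK := slice K hK hKs fun i hi => (hflip i hi).1
    have sL := slice L hL hLs fun i hi => (hflip i hi).2
    set W := logComb a b K L with hW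
    -- slices of the combination contain combinations of slices
    have hincl : ∀ z₁ z₂ : ℝ, 0 < z₁ → 0 < z₂ →
        (sec K z₁).Nonempty →
        (sec L z₂).Nonempty →
        logComb a b (sec K z₁) (sec L z₂) ⊆
          (sec W (z₁ ^ a * z₂ ^ b)) := by
      intro z₁ z₂ hz₁ hz₂ hn₁ hn₂ y hy u
      set u' : Fin (m + 2) → ℝ := Fin.tail u
      have hdot : ∀ (z : ℝ) (y : Fin (m + 2) → ℝ), (Fin.cons z y : Fin (m + 3) → ℝ) ⬝ᵥ u =
          z * u 0 + y ⬝ᵥ u' := by
        intro z y
        rw [dotProduct, Fin.sum_univ_succ]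
        simp [u', dotProduct, Fin.tail]
      have hside : ∀ (M : Set (Fin (m + 3) → ℝ)), IsCompact M → ∀ z : ℝ,
          (IsCompact (sec M z) ∧
          ∀ y ∈ (sec M z), (Fin.cons (-z) y : Fin (m + 3) → ℝ) ∈ M) →
          (sec M z).Nonempty →
          supp (sec M z) u' + |z * u 0| ≤ supp M u := by
        intro M hM z ⟨hc, hf⟩ hne
        obtain ⟨y0, hy0, he⟩ := exists_supp hc hne u'
        have h1 := supp_le hM hy0 u
        have h2 := supp_le hM (hf y0 hy0) u
        rw [hdot, he] at h1 h2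
        rcases abs_cases (z * u 0) with ⟨h, -⟩ | ⟨h, -⟩ <;> rw [h] <;> linarith
      have n1 := supp_nonneg (sK z₁).1 (sK z₁).2.1 hn₁ u'
      have n2 := supp_nonneg (sL z₂).1 (sL z₂).2.1 hn₂ u'
      have k1 := hside K hK z₁ ⟨(sK z₁).1, (sK z₁).2.2.2⟩ hn₁
      have k2 := hside L hL z₂ ⟨(sL z₂).1, (sL z₂).2.2.2⟩ hn₂
      rw [hdot]
      have hz : z₁ ^ a * z₂ ^ b * u 0 ≤ |z₁ * u 0| ^ a * |z₂ * u 0| ^ b := by
        rw [abs_mul, abs_mul, abs_of_pos hz₁, abs_of_pos hz₂, Real.mul_rpow hz₁.le (abs_nonneg _),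
          Real.mul_rpow hz₂.le (abs_nonneg _)]
        have e : |u 0| ^ a * |u 0| ^ b = |u 0| := by
          rw [← Real.rpow_add' (abs_nonneg _) (by linarith), hab, Real.rpow_one]
        calc z₁ ^ a * z₂ ^ b * u 0 ≤ z₁ ^ a * z₂ ^ b * |u 0| := by
              gcongr; exact le_abs_self _
          _ = z₁ ^ a * |u 0| ^ a * (z₂ ^ b * |u 0| ^ b) := by
              conv_lhs => rw [← e]
              ring
      calc z₁ ^ a * z₂ ^ b * u 0 + y ⬝ᵥ u'
          ≤ supp (sec K z₁) u' ^ a *
              supp (sec L z₂) u' ^ b +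
              |z₁ * u 0| ^ a * |z₂ * u 0| ^ b := by linarith [hy u']
        _ ≤ _ := rpow_superadd ha hb hab n1 n2 (abs_nonneg _) (abs_nonneg _)
        _ ≤ supp K u ^ a * supp L u ^ b := by
            gcongr
            exact Real.rpow_nonneg ((add_nonneg n1 (abs_nonneg _)).trans k1) _
    have hWm : MeasurableSet W := (isClosed_logComb a b K L).measurableSet
    set f : ℝ → ℝ≥0∞ := fun z => volume (sec K z) with hf
    set g : ℝ → ℝ≥0∞ := fun z => volume (sec L z) with hg
    set h : ℝ → ℝ≥0∞ := fun z => volume (sec W z) with hh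
    have hfm : Measurable f := (volume_slices hK.measurableSet).2
    have hgm : Measurable g := (volume_slices hL.measurableSet).2
    have hhm : Measurable h := (volume_slices hWm).2
    let up : (ℝ → ℝ≥0∞) → ℝ → ℝ≥0∞ := fun g s => ENNReal.ofReal (Real.exp s) * g (Real.exp s)
    have hpl : (∫⁻ s, up f s) ^ a * (∫⁻ s, up g s) ^ b ≤ ∫⁻ s, up h s := by
      refine P245.pl_one ha hb hab _ _ _ (by fun_prop) (by fun_prop) (by fun_prop) fun s t => ?_
      have hz : Real.exp (a * s + b * t) = Real.exp s ^ a * Real.exp t ^ b := by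
        rw [← Real.exp_mul, ← Real.exp_mul, ← Real.exp_add]; ring_nf
      simp only [up]
      rw [ENNReal.mul_rpow_of_nonneg _ _ ha.le, ENNReal.mul_rpow_of_nonneg _ _ hb.le,
        mul_mul_mul_comm, ENNReal.ofReal_rpow_of_pos (Real.exp_pos _),
        ENNReal.ofReal_rpow_of_pos (Real.exp_pos _),
        ← ENNReal.ofReal_mul (Real.rpow_nonneg (Real.exp_pos _).le _), hz]
      refine mul_le_mul' le_rfl ?_
      rcases Set.eq_empty_or_nonempty (sec K (Real.exp s)) with
        he | hn₁
      · simp [hf, he, ENNReal.zero_rpow_of_pos ha]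
      rcases Set.eq_empty_or_nonempty (sec L (Real.exp t)) with
        he | hn₂
      · simp [hg, he, ENNReal.zero_rpow_of_pos hb]
      obtain ⟨c1, c2, c3, -⟩ := sK (Real.exp s)
      obtain ⟨d1, d2, d3, -⟩ := sL (Real.exp t)
      exact (ih _ _ c1 d1 c2 d2 (fun i hi => ⟨c3 i hi, d3 i hi⟩) a b ha hb hab).trans
        (measure_mono (hincl _ _ (Real.exp_pos _) (Real.exp_pos _) hn₁ hn₂))
    simp only [up, ← lintegral_exp] at hpl
    rw [volume_half hK.measurableSet hKs, volume_half hL.measurableSet hLs,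
      volume_half hWm (neg_mem_logComb hKs hLs), ENNReal.mul_rpow_of_nonneg _ _ ha.le,
      ENNReal.mul_rpow_of_nonneg _ _ hb.le, mul_mul_mul_comm,
      ← ENNReal.rpow_add _ _ two_ne_zero (by simp), hab, ENNReal.rpow_one]
    exact mul_le_mul' le_rfl hpl

end Vale.Agent.P227
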