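import Mathlib

/-!
The lower envelope of finitely many lines on an interval.
-/

open Finset

namespace Vale.Agent.P227

variable {ι : Type} [Fintype ι]

lemma envelope_aux (C W : ι → ℝ) (r : ℝ) :
    ∀ (n : ℕ) (i : ι) (x : ℝ), (univ.filter (fun j => C j < C i)).card ≤ n → x < r →
      (∀ j, C i * x + W i ≤ C j * x + W j) →
      (∀ j, C j * x + W j = C i * x + W i → C i ≤ C j) →
      ∃ (m : ℕ) (σ : ℕ → ι) (P : ℕ → ℝ), σ 0 = i ∧ P 0 = x ∧ P (m + 1) = r ∧
        (∀ k ≤ m, P k < P (k + 1)) ∧ (∀ k < m, C (σ (k + 1)) < C (σ k)) ∧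
        (∀ k < m, (C (σ k) - C (σ (k + 1))) * P (k + 1) = W (σ (k + 1)) - W (σ k)) ∧
        ∀ k ≤ m, ∀ y ∈ Set.Icc (P k) (P (k + 1)), ∀ j,
          C (σ k) * y + W (σ k) ≤ C j * y + W j := by
  classical
  intro n
  induction n using Nat.strong_induction_on with
  | _ n ih =>
  intro i x hn hx hmin htie
  set S := univ.filter (fun j => C j < C i ∧ W j - W i < (C i - C j) * r) with hS
  rcases S.eq_empty_or_nonempty with hE | hne
  · refine ⟨0, fun _ => i, fun k => if k = 0 then x else r, rfl, if_pos rfl, if_neg (by omega),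
      fun k hk => ?_, fun k hk => absurd hk (by omega), fun k hk => absurd hk (by omega),
      fun k hk y hy j => ?_⟩
    · obtain rfl : k = 0 := by omega
      simpa using hx
    · obtain rfl : k = 0 := by omega
      simp only [↓reduceIte, zero_add, one_ne_zero, Set.mem_Icc] at hy ⊢
      rcases le_or_gt (C i) (C j) with h | h
      · nlinarith [hmin j, mul_le_mul_of_nonneg_left hy.1 (sub_nonneg.2 h)]
      · have : ¬(W j - W i < (C i - C j) * r) := fun hh => by
          have : j ∈ S := by simp [hS, h, hh]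
          simp [hE] at this
        push Not at this
        nlinarith [mul_le_mul_of_nonneg_left hy.2 (sub_pos.2 h).le]
  · set X : ι → ℝ := fun j => (W j - W i) / (C i - C j) with hX
    obtain ⟨j1, hj1, hj1min⟩ := S.exists_min_image X hne
    set S' := S.filter (fun j => X j = X j1) with hS'
    have hne' : S'.Nonempty := ⟨j1, by simp [hS', hj1]⟩
    obtain ⟨j0, hj0', hj0min⟩ := S'.exists_min_image C hne'
    obtain ⟨hj0, hX0⟩ := mem_filter.1 hj0'
    obtain ⟨-, hlt, hW0⟩ := mem_filter.1 hj0
    set x' := X j0 with hx'def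
    have hd : 0 < C i - C j0 := sub_pos.2 hlt
    have hx'r : x' < r := by rw [hx'def, hX]; exact (div_lt_iff₀ hd).2 (by linarith)
    have heq : (C i - C j0) * x' = W j0 - W i := by
      rw [hx'def, hX]; field_simp
    have hxx' : x < x' := by
      by_contra hle
      push Not at hle
      have h1 := hmin j0
      have h2 : C j0 * x + W j0 ≤ C i * x + W i := by
        nlinarith [mul_le_mul_of_nonneg_left hle hd.le]
      linarith [htie j0 (le_antisymm h2 h1)]
    have himin : ∀ y ∈ Set.Icc x x', ∀ j, C i * y + W i ≤ C j * y + W j := by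
      intro y hy j
      rcases le_or_gt (C i) (C j) with h | h
      · nlinarith [hmin j, mul_le_mul_of_nonneg_left hy.1 (sub_nonneg.2 h)]
      · have hdj : 0 < C i - C j := sub_pos.2 h
        by_cases hj : W j - W i < (C i - C j) * r
        · have hjS : j ∈ S := by simp [hS, h, hj]
          have h3 : x' ≤ X j := hX0 ▸ hj1min j hjS
          have h4 : y * (C i - C j) ≤ W j - W i := (le_div_iff₀ hdj).1 (hy.2.trans h3)
          linarith
        · push Not at hj
          nlinarith [mul_le_mul_of_nonneg_left (hy.2.trans hx'r.le) hdj.le]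
    have hj0tie : ∀ j, C j * x' + W j = C j0 * x' + W j0 → C j0 ≤ C j := by
      intro j hj
      rcases le_or_gt (C i) (C j) with h | h
      · linarith
      · have hdj : 0 < C i - C j := sub_pos.2 h
        have h5 : W j - W i = (C i - C j) * x' := by linarith
        have hjS : j ∈ S := by
          simp only [hS, mem_filter, mem_univ, true_and]
          exact ⟨h, h5 ▸ mul_lt_mul_of_pos_left hx'r hdj⟩
        refine hj0min j (mem_filter.2 ⟨hjS, ?_⟩)
        rw [← hX0]
        show (W j - W i) / (C i - C j) = x'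
        rw [h5]
        field_simp
    have hcard : (univ.filter (fun j => C j < C j0)).card < n := by
      refine lt_of_lt_of_le (card_lt_card ?_) hn
      refine (ssubset_iff_of_subset ?_).2 ⟨j0, by simp [hlt], by simp⟩
      intro j
      simp only [mem_filter, mem_univ, true_and]
      exact fun h => h.trans hlt
    obtain ⟨m, σ, P, hσ0, hP0, hPr, hlt', hsl, hbr, hlow⟩ := ih _ hcard j0 x' le_rfl hx'r
      (fun j => by
        have := himin x' ⟨hxx'.le, le_rfl⟩ j
        linarith) hj0tie
    let σ' : ℕ → ι := fun k => Nat.casesOn k i σ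
    let P' : ℕ → ℝ := fun k => Nat.casesOn k x P
    refine ⟨m + 1, σ', P', rfl, rfl, hPr, ?_, ?_, ?_, ?_⟩
    · rintro (_ | k) hk
      · show x < P 0
        rw [hP0]; exact hxx'
      · exact hlt' k (by omega)
    · rintro (_ | k) hk
      · show C (σ 0) < C i
        rw [hσ0]; exact hlt
      · exact hsl k (by omega)
    · rintro (_ | k) hk
      · show (C i - C (σ 0)) * P 0 = W (σ 0) - W i
        rw [hσ0, hP0]; exact heq
      · exact hbr k (by omega)
    · rintro (_ | k) hk y hy j
      · have hy' : y ∈ Set.Icc x (P 0) := hy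
        rw [hP0] at hy'
        exact himin y hy' j
      · exact hlow k (by omega) y hy j

/-- The lower envelope of finitely many lines over an interval is a chain of lines. -/
lemma exists_envelope [Nonempty ι] (C W : ι → ℝ) {a b : ℝ} (hab : a < b) :
    ∃ (m : ℕ) (σ : ℕ → ι) (P : ℕ → ℝ), P 0 = a ∧ P (m + 1) = b ∧
      (∀ k ≤ m, P k < P (k + 1)) ∧ (∀ k < m, C (σ (k + 1)) < C (σ k)) ∧
      (∀ k < m, (C (σ k) - C (σ (k + 1))) * P (k + 1) = W (σ (k + 1)) - W (σ k)) ∧
      ∀ k ≤ m, ∀ y ∈ Set.Icc (P k) (P (k + 1)), ∀ j,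
        C (σ k) * y + W (σ k) ≤ C j * y + W j := by
  classical
  obtain ⟨i1, -, hi1⟩ := univ.exists_min_image (fun j => C j * a + W j) univ_nonempty
  obtain ⟨i, hi, hiC⟩ := (univ.filter (fun j => C j * a + W j = C i1 * a + W i1)).exists_min_image
    C ⟨i1, by simp⟩
  simp only [mem_filter, mem_univ, true_and] at hi hiC
  obtain ⟨m, σ, P, -, h⟩ := envelope_aux C W b _ i a le_rfl hab
    (fun j => by linarith [hi1 j (mem_univ j)]) (fun j hj => hiC j (by linarith))
  exact ⟨m, σ, P, h⟩

end Vale.Agent.P227
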