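import Vale.Agent.P227.Body
import Vale.Agent.P227.Lp3.Geometry
import Vale.Agent.P227.Lp3.Concave
import Vale.Agent.P227.Lp3.Tau
import Vale.Agent.P227.LogBM.Dir
import Vale.Agent.P227.LogBM.Local
import Vale.Agent.P227.LogBM.Global

/-!
# P227: pairs with all but three common mirrors

The theorem in `ℝ³` is the base of the induction along common mirrors.
-/

open MeasureTheory Set Filter Finset Matrix
open scoped Topology ENNReal

namespace Vale.Agent.P227

/-- The closed convex hull. -/
def hullC (M : Set (Fin 3 → ℝ)) : Set (Fin 3 → ℝ) := closure (convexHull ℝ M)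

lemma subset_hullC (M : Set (Fin 3 → ℝ)) : M ⊆ hullC M :=
  (subset_convexHull ℝ M).trans subset_closure

lemma isCompact_hullC {M : Set (Fin 3 → ℝ)} (hM : IsCompact M) : IsCompact (hullC M) :=
  Metric.isCompact_of_isClosed_isBounded isClosed_closure
    ((isBounded_convexHull.2 hM.isBounded).closure)

lemma convex_hullC (M : Set (Fin 3 → ℝ)) : Convex ℝ (hullC M) := (convex_convexHull ℝ M).closure

/-- The inequality for symmetric compact sets in space. -/
lemma spatial {K L : Set (Fin 3 → ℝ)} (hK : IsCompact K) (hL : IsCompact L)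
    (hKs : ∀ x ∈ K, -x ∈ K) (hLs : ∀ x ∈ L, -x ∈ L) {a b : ℝ} (ha : 0 < a) (hb : 0 < b)
    (hab : a + b = 1) :
    volume K ^ a * volume L ^ b ≤ volume (logComb a b K L) := by
  rcases eq_or_ne (volume K) 0 with h0 | hvK
  · simp [h0, ENNReal.zero_rpow_of_pos ha]
  rcases eq_or_ne (volume L) 0 with h0 | hvL
  · simp [h0, ENNReal.zero_rpow_of_pos hb]
  have body : ∀ M : Set (Fin 3 → ℝ), IsCompact M → (∀ x ∈ M, -x ∈ M) → volume M ≠ 0 →
      Lp3.IsSymBody (hullC M) := by
    intro M hM hMs hv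
    refine ⟨isCompact_hullC hM, convex_hullC M, ?_, ?_⟩
    · by_contra hne
      rw [Set.not_nonempty_iff_eq_empty] at hne
      refine hv (measure_mono_null (t := frontier (hullC M)) (fun x hx => ?_)
        ((convex_hullC M).addHaar_frontier volume))
      rw [frontier, hne, Set.sdiff_empty]
      exact subset_closure (subset_hullC M hx)
    · intro x hx
      have hMneg : -M = M := by
        ext y
        exact ⟨fun hy => by simpa using hMs _ hy, fun hy => hMs _ hy⟩
      rw [← Set.mem_neg, hullC, neg_closure, ← convexHull_neg, hMneg]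
      exact hx
  have hKb := body K hK hKs hvK
  have hLb := body L hL hLs hvL
  have hg : Lp3.GeomSpec := Lp3.geomSpec
  have hbm : Lp3.BMSpec := Lp3.bmSpec
  have hmain := Log3.logMainSpec hg
    (Log3.localSpec hg hbm (Lp3.tauSpec hg hbm) Log3.dirSpec) _ _ hKb hLb b hb.le (by linarith)
  rw [show 1 - b = a by linarith] at hmain
  refine le_trans ?_ (hmain.trans (measure_mono ?_))
  · gcongr
    · exact subset_hullC K
    · exact subset_hullC L
  intro x hx u
  rcases eq_or_ne u 0 with rfl | hu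
  · rw [dotProduct_zero]
    have hKne : K.Nonempty := nonempty_of_measure_ne_zero hvK
    have hLne : L.Nonempty := nonempty_of_measure_ne_zero hvL
    exact mul_nonneg (Real.rpow_nonneg (supp_nonneg hK hKs hKne 0) _)
      (Real.rpow_nonneg (supp_nonneg hL hLs hLne 0) _)
  have hq : 0 < u ⬝ᵥ u := lt_of_le_of_ne (Finset.sum_nonneg fun i _ => mul_self_nonneg (u i))
    fun h => hu (dotProduct_self_eq_zero.1 h.symm)
  set r : ℝ := Real.sqrt (u ⬝ᵥ u) with hr
  have hrp : 0 < r := Real.sqrt_pos.2 hq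
  set v : Fin 3 → ℝ := r⁻¹ • u with hv
  have hvv : v ⬝ᵥ v = 1 := by
    rw [hv, smul_dotProduct, dotProduct_smul, smul_eq_mul, smul_eq_mul, ← mul_assoc, ← mul_inv,
      hr, Real.mul_self_sqrt hq.le, inv_mul_cancel₀ hq.ne']
  have hxv := hx v hvv
  rw [show 1 - b = a by linarith] at hxv
  have hsupp : ∀ M : Set (Fin 3 → ℝ), IsCompact M → (∀ y ∈ M, -y ∈ M) → M.Nonempty →
      0 ≤ Lp3.supportFn (hullC M) v ∧
      r * Lp3.supportFn (hullC M) v ≤ supp M u := by
    intro M hM hMs hne
    have hc : IsCompact (hullC M) := isCompact_hullC hM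
    obtain ⟨y, hy, he⟩ := exists_supp hc (hne.mono (subset_hullC M)) v
    have hlin : ∀ z ∈ hullC M, z ⬝ᵥ u ≤ supp M u := fun z hz => by
      refine closure_minimal (t := {z | z ⬝ᵥ u ≤ supp M u}) ?_
        (isClosed_le (continuous_dot u) continuous_const) hz
      refine convexHull_min (fun p hp => supp_le hM hp u) ?_
      exact convex_halfSpace_le ⟨fun p q => add_dotProduct p q u,
        fun c p => smul_dotProduct c p u⟩ _
    obtain ⟨p, hp⟩ := hne
    refine ⟨?_, ?_⟩
    · have h1 := supp_le hc (subset_hullC M hp) v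
      have h2 := supp_le hc (subset_hullC M (hMs p hp)) v
      rw [neg_dotProduct] at h2
      change 0 ≤ supp (hullC M) v
      linarith
    · change r * supp (hullC M) v ≤ supp M u
      refine le_trans (le_of_eq ?_) (hlin y hy)
      rw [← he, hv, dotProduct_smul, smul_eq_mul, ← mul_assoc, mul_inv_cancel₀ hrp.ne', one_mul]
  obtain ⟨k0, k1⟩ := hsupp K hK hKs (nonempty_of_measure_ne_zero hvK)
  obtain ⟨l0, l1⟩ := hsupp L hL hLs (nonempty_of_measure_ne_zero hvL)
  have e : x ⬝ᵥ u = r * (x ⬝ᵥ v) := by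
    rw [hv, dotProduct_smul, smul_eq_mul, ← mul_assoc, mul_inv_cancel₀ hrp.ne', one_mul]
  rw [e]
  refine le_trans (mul_le_mul_of_nonneg_left hxv hrp.le) ?_
  calc r * (Lp3.supportFn (hullC K) v ^ a * Lp3.supportFn (hullC L) v ^ b)
      = (r * Lp3.supportFn (hullC K) v) ^ a *
          (r * Lp3.supportFn (hullC L) v) ^ b := by
        rw [Real.mul_rpow hrp.le k0, Real.mul_rpow hrp.le l0, mul_mul_mul_comm,
          ← Real.rpow_add hrp, hab, Real.rpow_one]
    _ ≤ supp K u ^ a * supp L u ^ b := by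
        have hk := mul_nonneg hrp.le k0
        have hl := mul_nonneg hrp.le l0
        exact mul_le_mul (Real.rpow_le_rpow hk k1 ha.le) (Real.rpow_le_rpow hl l1 hb.le)
          (Real.rpow_nonneg hl _) (Real.rpow_nonneg (hk.trans k1) _)

/-- Slices orthogonal to a common mirror reduce the dimension. -/
theorem mirror_induction_three : ∀ (m : ℕ) (K L : Set (Fin (m + 3) → ℝ)), IsCompact K → IsCompact L →
    (∀ x ∈ K, -x ∈ K) → (∀ x ∈ L, -x ∈ L) →
    (∀ i : Fin (m + 3), (i : ℕ) < m →
      (∀ x ∈ K, flipCoord i x ∈ K) ∧ ∀ x ∈ L, flipCoord i x ∈ L) →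
    ∀ a b : ℝ, 0 < a → 0 < b → a + b = 1 →
    volume K ^ a * volume L ^ b ≤ volume (logComb a b K L) := by
  intro m
  induction m with
  | zero => exact fun K L hK hL hKs hLs _ a b ha hb hab => spatial hK hL hKs hLs ha hb hab
  | succ m ih =>
    intro K L hK hL hKs hLs hflip a b ha hb hab
    have h0 := hflip 0 (by simp)
    -- facts about slices
    have slice : ∀ (M : Set (Fin (m + 1 + 3) → ℝ)), IsCompact M → (∀ x ∈ M, -x ∈ M) →
        (∀ i : Fin (m + 1 + 3), (i : ℕ) < m + 1 → ∀ x ∈ M, flipCoord i x ∈ M) → ∀ z : ℝ,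
        IsCompact (sec M z) ∧
        (∀ y ∈ (sec M z), -y ∈ sec M z) ∧
        (∀ i : Fin (m + 3), (i : ℕ) < m → ∀ y ∈ (sec M z),
          flipCoord i y ∈ sec M z) ∧
        ∀ y ∈ (sec M z), (Fin.cons (-z) y : Fin (m + 4) → ℝ) ∈ M := by
      intro M hM hMs hMf z
      have hflip0 : ∀ y : Fin (m + 3) → ℝ, flipCoord 0 (Fin.cons z y) = Fin.cons (-z) y := by
        intro y
        simp [flipCoord, Fin.update_cons_zero]
      have hf0 : ∀ y ∈ (sec M z),
          (Fin.cons (-z) y : Fin (m + 4) → ℝ) ∈ M := fun y hy => by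
        have := hMf 0 (by simp) _ hy
        rwa [hflip0] at this
      refine ⟨?_, fun y hy => ?_, fun i hi y hy => ?_, hf0⟩
      · refine (hM.image (f := fun x => Fin.tail x) (by
          unfold Fin.tail; fun_prop)).of_isClosed_subset (hM.isClosed.preimage (by fun_prop)) ?_
        exact fun y hy => ⟨Fin.cons z y, hy, Fin.tail_cons (α := fun _ => ℝ) z y⟩
      · have := hMs _ (hf0 y hy)
        refine (congrArg (· ∈ M) ?_).mp this
        funext i
        refine Fin.cases ?_ (fun j => ?_) i <;> simp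
      · have := hMf i.succ (by simpa using hi) _ hy
        refine (congrArg (· ∈ M) ?_).mp this
        simp [flipCoord, Fin.cons_update]
    have sK := slice K hK hKs fun i hi => (hflip i hi).1
    have sL := slice L hL hLs fun i hi => (hflip i hi).2
    set W := logComb a b K L with hW
    -- slices of the combination contain combinations of slices
    have hincl : ∀ z₁ z₂ : ℝ, 0 < z₁ → 0 < z₂ →
        (sec K z₁).Nonempty →
        (sec L z₂).Nonempty →
        logComb a b (sec K z₁) (sec L z₂) ⊆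
          (sec W (z₁ ^ a * z₂ ^ b)) := by
      intro z₁ z₂ hz₁ hz₂ hn₁ hn₂ y hy u
      set u' : Fin (m + 3) → ℝ := Fin.tail u
      have hdot : ∀ (z : ℝ) (y : Fin (m + 3) → ℝ), (Fin.cons z y : Fin (m + 4) → ℝ) ⬝ᵥ u =
          z * u 0 + y ⬝ᵥ u' := by
        intro z y
        rw [dotProduct, Fin.sum_univ_succ]
        simp [u', dotProduct, Fin.tail]
      have hside : ∀ (M : Set (Fin (m + 4) → ℝ)), IsCompact M → ∀ z : ℝ,
          (IsCompact (sec M z) ∧
          ∀ y ∈ (sec M z), (Fin.cons (-z) y : Fin (m + 4) → ℝ) ∈ M) →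
          (sec M z).Nonempty →
          supp (sec M z) u' + |z * u 0| ≤ supp M u := by
        intro M hM z ⟨hc, hf⟩ hne
        obtain ⟨y0, hy0, he⟩ := exists_supp hc hne u'
        have h1 := supp_le hM hy0 u
        have h2 := supp_le hM (hf y0 hy0) u
        rw [hdot, he] at h1 h2
        rcases abs_cases (z * u 0) with ⟨h, -⟩ | ⟨h, -⟩ <;> rw [h] <;> linarith
      have n1 := supp_nonneg (sK z₁).1 (sK z₁).2.1 hn₁ u'
      have n2 := supp_nonneg (sL z₂).1 (sL z₂).2.1 hn₂ u'
      have k1 := hside K hK z₁ ⟨(sK z₁).1, (sK z₁).2.2.2⟩ hn₁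
      have k2 := hside L hL z₂ ⟨(sL z₂).1, (sL z₂).2.2.2⟩ hn₂
      rw [hdot]
      have hz : z₁ ^ a * z₂ ^ b * u 0 ≤ |z₁ * u 0| ^ a * |z₂ * u 0| ^ b := by
        rw [abs_mul, abs_mul, abs_of_pos hz₁, abs_of_pos hz₂, Real.mul_rpow hz₁.le (abs_nonneg _),
          Real.mul_rpow hz₂.le (abs_nonneg _)]
        have e : |u 0| ^ a * |u 0| ^ b = |u 0| := by
          rw [← Real.rpow_add' (abs_nonneg _) (by linarith), hab, Real.rpow_one]
        calc z₁ ^ a * z₂ ^ b * u 0 ≤ z₁ ^ a * z₂ ^ b * |u 0| := by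
              gcongr; exact le_abs_self _
          _ = z₁ ^ a * |u 0| ^ a * (z₂ ^ b * |u 0| ^ b) := by
              conv_lhs => rw [← e]
              ring
      calc z₁ ^ a * z₂ ^ b * u 0 + y ⬝ᵥ u'
          ≤ supp (sec K z₁) u' ^ a *
              supp (sec L z₂) u' ^ b +
              |z₁ * u 0| ^ a * |z₂ * u 0| ^ b := by linarith [hy u']
        _ ≤ _ := rpow_superadd ha hb hab n1 n2 (abs_nonneg _) (abs_nonneg _)
        _ ≤ supp K u ^ a * supp L u ^ b := by
            gcongr
            exact Real.rpow_nonneg ((add_nonneg n1 (abs_nonneg _)).trans k1) _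
    have hWm : MeasurableSet W := (isClosed_logComb a b K L).measurableSet
    set f : ℝ → ℝ≥0∞ := fun z => volume (sec K z) with hf
    set g : ℝ → ℝ≥0∞ := fun z => volume (sec L z) with hg
    set h : ℝ → ℝ≥0∞ := fun z => volume (sec W z) with hh
    have hfm : Measurable f := (volume_slices hK.measurableSet).2
    have hgm : Measurable g := (volume_slices hL.measurableSet).2
    have hhm : Measurable h := (volume_slices hWm).2
    let up : (ℝ → ℝ≥0∞) → ℝ → ℝ≥0∞ := fun g s => ENNReal.ofReal (Real.exp s) * g (Real.exp s)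
    have hpl : (∫⁻ s, up f s) ^ a * (∫⁻ s, up g s) ^ b ≤ ∫⁻ s, up h s := by
      refine P245.pl_one ha hb hab _ _ _ (by fun_prop) (by fun_prop) (by fun_prop) fun s t => ?_
      have hz : Real.exp (a * s + b * t) = Real.exp s ^ a * Real.exp t ^ b := by
        rw [← Real.exp_mul, ← Real.exp_mul, ← Real.exp_add]; ring_nf
      simp only [up]
      rw [ENNReal.mul_rpow_of_nonneg _ _ ha.le, ENNReal.mul_rpow_of_nonneg _ _ hb.le,
        mul_mul_mul_comm, ENNReal.ofReal_rpow_of_pos (Real.exp_pos _),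
        ENNReal.ofReal_rpow_of_pos (Real.exp_pos _),
        ← ENNReal.ofReal_mul (Real.rpow_nonneg (Real.exp_pos _).le _), hz]
      refine mul_le_mul' le_rfl ?_
      rcases Set.eq_empty_or_nonempty (sec K (Real.exp s)) with
        he | hn₁
      · simp [hf, he, ENNReal.zero_rpow_of_pos ha]
      rcases Set.eq_empty_or_nonempty (sec L (Real.exp t)) with
        he | hn₂
      · simp [hg, he, ENNReal.zero_rpow_of_pos hb]
      obtain ⟨c1, c2, c3, -⟩ := sK (Real.exp s)
      obtain ⟨d1, d2, d3, -⟩ := sL (Real.exp t)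
      exact (ih _ _ c1 d1 c2 d2 (fun i hi => ⟨c3 i hi, d3 i hi⟩) a b ha hb hab).trans
        (measure_mono (hincl _ _ (Real.exp_pos _) (Real.exp_pos _) hn₁ hn₂))
    simp only [up, ← lintegral_exp] at hpl
    rw [volume_half hK.measurableSet hKs, volume_half hL.measurableSet hLs,
      volume_half hWm (neg_mem_logComb hKs hLs), ENNReal.mul_rpow_of_nonneg _ _ ha.le,
      ENNReal.mul_rpow_of_nonneg _ _ hb.le, mul_mul_mul_comm,
      ← ENNReal.rpow_add _ _ two_ne_zero (by simp), hab, ENNReal.rpow_one]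
    exact mul_le_mul' le_rfl hpl


end Vale.Agent.P227
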