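import Mathlib

/-!
The area form of a symmetric polygon presented by a chain of lines, and its reverse
Cauchy-Schwarz inequality averaged over the cone measure.
-/

open Finset

namespace Vale.Agent.P227

/-- The bilinear area form of the chain with slopes `γ 0, …, γ m`. -/
noncomputable def areaForm (γ : ℕ → ℝ) (m : ℕ) (r : ℝ) (f : ℕ → ℝ) (r' : ℝ) (g : ℕ → ℝ) : ℝ :=
  (γ m - γ 0) * r * r' + (f 0 + f m) * r' + (g 0 + g m) * r -
    ∑ k ∈ range m, (f (k + 1) - f k) * (g (k + 1) - g k) / (γ k - γ (k + 1))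

lemma areaForm_expand (γ : ℕ → ℝ) (m : ℕ) (r r' : ℝ) (f g : ℕ → ℝ) (s : ℝ) :
    areaForm γ m (r' - s * r) (fun k => g k - s * f k) (r' - s * r) (fun k => g k - s * f k) =
      areaForm γ m r' g r' g - 2 * s * areaForm γ m r f r' g + s ^ 2 * areaForm γ m r f r f := by
  have e : ∑ k ∈ range m, (g (k + 1) - s * f (k + 1) - (g k - s * f k)) *
        (g (k + 1) - s * f (k + 1) - (g k - s * f k)) / (γ k - γ (k + 1)) =
      (∑ k ∈ range m, (g (k + 1) - g k) * (g (k + 1) - g k) / (γ k - γ (k + 1))) -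
        2 * s * (∑ k ∈ range m, (f (k + 1) - f k) * (g (k + 1) - g k) / (γ k - γ (k + 1))) +
        s ^ 2 * (∑ k ∈ range m, (f (k + 1) - f k) * (f (k + 1) - f k) / (γ k - γ (k + 1))) := by
    rw [mul_sum, mul_sum, ← sum_sub_distrib, ← sum_add_distrib]
    exact sum_congr rfl fun k _ => by ring
  simp only [areaForm, e]
  ring

lemma slope_strict {γ : ℕ → ℝ} {m : ℕ} (hγ : ∀ k < m, γ (k + 1) < γ k) :
    ∀ {i j : ℕ}, i < j → j ≤ m → γ j < γ i := by
  intro i j hij hj
  induction j with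
  | zero => omega
  | succ j ih =>
    rcases Nat.lt_succ_iff_lt_or_eq.1 hij with h | h
    · exact (hγ j (by omega)).trans (ih h (by omega))
    · subst h; exact hγ i (by omega)

lemma telescope (F : ℕ → ℝ) {i j : ℕ} (h : i ≤ j) :
    ∑ k ∈ Ico i j, (F (k + 1) - F k) = F j - F i := by
  induction j, h using Nat.le_induction with
  | base => simp
  | succ j hij ih => rw [sum_Ico_succ_top hij, ih]; ring

lemma chain_cauchy {γ f : ℕ → ℝ} {m : ℕ} (hγ : ∀ k < m, γ (k + 1) < γ k) {i j : ℕ} (hij : i ≤ j)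
    (hj : j ≤ m) :
    (f j - f i) ^ 2 / (γ i - γ j) ≤
      ∑ k ∈ Ico i j, (f (k + 1) - f k) * (f (k + 1) - f k) / (γ k - γ (k + 1)) := by
  have h := sq_sum_div_le_sum_sq_div (Ico i j) (fun k => f (k + 1) - f k)
    (g := fun k => γ k - γ (k + 1)) (fun k hk => sub_pos.2 (hγ k (by
      have := (mem_Ico.1 hk).2; omega)))
  have e1 := telescope f hij
  have e2 : ∑ k ∈ Ico i j, (γ k - γ (k + 1)) = γ i - γ j := by
    have := telescope (fun k => -γ k) hij
    have h2 : ∀ k, -γ (k + 1) - -γ k = γ k - γ (k + 1) := fun k => by ring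
    simp only [h2] at this
    linarith
  rw [e1, e2] at h
  refine h.trans (le_of_eq (sum_congr rfl fun k _ => ?_))
  ring

lemma two_mul_le_div {a r f F : ℝ} (ha : 0 ≤ a) (hz : a = 0 → f = 0) (hF : f ^ 2 / a ≤ F) :
    2 * f * r ≤ a * r ^ 2 + F := by
  rcases eq_or_lt_of_le ha with h | h
  · have := hz h.symm
    subst this
    simp [← h] at hF ⊢
    exact hF
  · rw [div_le_iff₀ h] at hF
    nlinarith [sq_nonneg (a * r - f)]

/-- The area form is nonpositive as soon as one support number vanishes. -/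
lemma areaForm_nonpos_of_zero {γ f : ℕ → ℝ} {m : ℕ} {r : ℝ} (hγ : ∀ k < m, γ (k + 1) < γ k)
    (h : r = 0 ∨ ∃ j ≤ m, f j = 0) : areaForm γ m r f r f ≤ 0 := by
  rcases h with rfl | ⟨j, hj, hfj⟩
  · simp only [areaForm, mul_zero, add_zero, zero_sub, neg_nonpos]
    exact sum_nonneg fun k hk => div_nonneg (mul_self_nonneg _)
      (sub_pos.2 (hγ k (mem_range.1 hk))).le
  · have h1 := chain_cauchy (f := f) hγ (Nat.zero_le j) hj
    have h2 := chain_cauchy (f := f) hγ hj le_rfl
    have hsplit := sum_Ico_consecutive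
      (fun k => (f (k + 1) - f k) * (f (k + 1) - f k) / (γ k - γ (k + 1))) (Nat.zero_le j) hj
    have ha : 0 ≤ γ 0 - γ j := by
      rcases Nat.eq_zero_or_pos j with h | h
      · simp [h]
      · exact (sub_pos.2 (slope_strict hγ h hj)).le
    have hb : 0 ≤ γ j - γ m := by
      rcases eq_or_lt_of_le hj with h | h
      · simp [h]
      · exact (sub_pos.2 (slope_strict hγ h le_rfl)).le
    rw [hfj, zero_sub, neg_sq] at h1
    rw [hfj, sub_zero] at h2
    have i1 := two_mul_le_div (r := r) ha (fun h => ?_) h1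
    · have i2 := two_mul_le_div (r := r) hb (fun h => ?_) h2
      · simp only [areaForm, range_eq_Ico, ← hsplit]
        nlinarith
      · rcases eq_or_lt_of_le hj with h' | h'
        · rw [← h']; exact hfj
        · linarith [slope_strict hγ h' le_rfl]
    · rcases Nat.eq_zero_or_pos j with h' | h'
      · rw [← h']; exact hfj
      · linarith [slope_strict hγ h' hj]

lemma sum_by_parts (g P : ℕ → ℝ) : ∀ m : ℕ,
    (∑ k ∈ range m, (g (k + 1) - g k) * P (k + 1)) +
      ∑ k ∈ range (m + 1), g k * (P (k + 1) - P k) = g m * P (m + 1) - g 0 * P 0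
  | 0 => by simp; ring
  | m + 1 => by
    rw [sum_range_succ, sum_range_succ _ (m + 1)]
    have := sum_by_parts g P m
    linear_combination this

/-- The data of a chain: `P` are the break points. -/
structure IsChain (γ : ℕ → ℝ) (m : ℕ) (r : ℝ) (f P : ℕ → ℝ) : Prop where
  slope : ∀ k < m, γ (k + 1) < γ k
  first : P 0 = -r
  last : P (m + 1) = r
  break_eq : ∀ k < m, (γ k - γ (k + 1)) * P (k + 1) = f (k + 1) - f k

lemma areaForm_cone {γ f P : ℕ → ℝ} {m : ℕ} {r : ℝ} (h : IsChain γ m r f P) (r' : ℝ) (g : ℕ → ℝ) :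
    areaForm γ m r f r' g = ((γ m - γ 0) * r + f 0 + f m) * r' +
      ∑ k ∈ range (m + 1), g k * (P (k + 1) - P k) := by
  have e : ∑ k ∈ range m, (f (k + 1) - f k) * (g (k + 1) - g k) / (γ k - γ (k + 1)) =
      ∑ k ∈ range m, (g (k + 1) - g k) * P (k + 1) := by
    refine sum_congr rfl fun k hk => ?_
    have hk' := mem_range.1 hk
    rw [← h.break_eq k hk']
    field_simp [(sub_pos.2 (h.slope k hk')).ne']
  have := sum_by_parts g P m
  rw [h.first, h.last] at this
  rw [areaForm, e]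
  linear_combination -this

/-- The integral of the piecewise linear function of a chain. -/
lemma areaForm_integral {γ f P : ℕ → ℝ} {m : ℕ} {r : ℝ} (h : IsChain γ m r f P) :
    2 * ∑ k ∈ range (m + 1),
      (γ k / 2 * (P (k + 1) ^ 2 - P k ^ 2) + f k * (P (k + 1) - P k)) = areaForm γ m r f r f := by
  have key : ∀ n ≤ m, 2 * ∑ k ∈ range (n + 1),
        (γ k / 2 * (P (k + 1) ^ 2 - P k ^ 2) + f k * (P (k + 1) - P k)) =
      γ n * P (n + 1) ^ 2 + 2 * f n * P (n + 1) - γ 0 * P 0 ^ 2 - 2 * f 0 * P 0 -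
        ∑ k ∈ range n, (f (k + 1) - f k) * (f (k + 1) - f k) / (γ k - γ (k + 1)) := by
    intro n
    induction n with
    | zero => intro _; simp; ring
    | succ n ih =>
      intro hn
      have hd := (sub_pos.2 (h.slope n (by omega))).ne'
      rw [sum_range_succ, mul_add, ih (by omega), sum_range_succ _ n, ← h.break_eq n (by omega)]
      field_simp
      linear_combination 2 * P (n + 1) * h.break_eq n (by omega)
  rw [key m le_rfl, h.first, h.last, areaForm]
  ring

/-- The second-order log-concavity of the area. -/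
lemma area_second_order {γ f P : ℕ → ℝ} {m : ℕ} {r : ℝ} (h : IsChain γ m r f P) (hr : 0 < r)
    (hf : ∀ k ≤ m, 0 < f k) (hP : ∀ k ≤ m, P k < P (k + 1))
    (hα : 0 < (γ m - γ 0) * r + f 0 + f m) (v0 : ℝ) (v : ℕ → ℝ) :
    0 < areaForm γ m r f r f ∧
    areaForm γ m r f r f *
        (2 * areaForm γ m (r * v0) (fun k => f k * v k) (r * v0) (fun k => f k * v k) +
          2 * areaForm γ m r f (r * v0 ^ 2) (fun k => f k * v k ^ 2)) ≤
      (2 * areaForm γ m r f (r * v0) (fun k => f k * v k)) ^ 2 := by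
  set q := areaForm γ m r f r f with hq
  set b := areaForm γ m r f (r * v0) (fun k => f k * v k) with hb
  set G := areaForm γ m (r * v0) (fun k => f k * v k) (r * v0) (fun k => f k * v k) with hG
  set α := (γ m - γ 0) * r + f 0 + f m with hα'
  have hqc := areaForm_cone h r f
  have hbc := areaForm_cone h (r * v0) (fun k => f k * v k)
  have hcc := areaForm_cone h (r * v0 ^ 2) (fun k => f k * v k ^ 2)
  have hqpos : 0 < q := by
    rw [hq, hqc]
    refine add_pos_of_pos_of_nonneg (mul_pos hα hr) (sum_nonneg fun k hk => ?_)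
    have hk' : k ≤ m := by simpa [Nat.lt_succ_iff] using hk
    exact (mul_pos (hf k hk') (sub_pos.2 (hP k hk'))).le
  refine ⟨hqpos, ?_⟩
  have h0 : G - 2 * v0 * b + v0 ^ 2 * q ≤ 0 := by
    rw [hG, hb, hq, ← areaForm_expand]
    exact areaForm_nonpos_of_zero h.slope (Or.inl (by ring))
  have hk0 : ∀ k ≤ m, G - 2 * v k * b + v k ^ 2 * q ≤ 0 := by
    intro k hk
    rw [hG, hb, hq, ← areaForm_expand]
    exact areaForm_nonpos_of_zero h.slope (Or.inr ⟨k, hk, by ring⟩)
  have hsum : α * r * (G - 2 * v0 * b + v0 ^ 2 * q) +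
      ∑ k ∈ range (m + 1), f k * (P (k + 1) - P k) * (G - 2 * v k * b + v k ^ 2 * q) ≤ 0 := by
    refine add_nonpos (mul_nonpos_of_nonneg_of_nonpos (mul_pos hα hr).le h0)
      (sum_nonpos fun k hk => ?_)
    have hk' : k ≤ m := by simpa [Nat.lt_succ_iff] using hk
    exact mul_nonpos_of_nonneg_of_nonpos (mul_pos (hf k hk') (sub_pos.2 (hP k hk'))).le (hk0 k hk')
  have e : ∑ k ∈ range (m + 1), f k * (P (k + 1) - P k) * (G - 2 * v k * b + v k ^ 2 * q) =
      G * (∑ k ∈ range (m + 1), f k * (P (k + 1) - P k)) -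
        2 * b * (∑ k ∈ range (m + 1), f k * v k * (P (k + 1) - P k)) +
        q * (∑ k ∈ range (m + 1), f k * v k ^ 2 * (P (k + 1) - P k)) := by
    rw [mul_sum, mul_sum, mul_sum, ← sum_sub_distrib, ← sum_add_distrib]
    exact sum_congr rfl fun k _ => by ring
  rw [e] at hsum
  rw [← hq, ← hα'] at hqc
  rw [← hb, ← hα'] at hbc
  rw [← hα'] at hcc
  rw [hcc]
  clear_value q b G α
  subst hqc hbc
  nlinarith [hsum]

end Vale.Agent.P227
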