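import Vale.Agent.P227.Strip

/-!
Log-concavity of the area of symmetric polygons along exponential paths of the support numbers.
-/

open MeasureTheory Set Filter Finset
open scoped Topology ENNReal

namespace Vale.Agent.P227

variable {ι : Type} [Fintype ι]

/-- A twice differentiable upper barrier with nonpositive second derivative. -/
lemma exists_barrier [Nonempty ι] (a b : ι → ℝ) (hsp : ∀ i, ∃ j, a i * b j - a j * b i ≠ 0)
    {w : ι → ℝ} (v : ι → ℝ) (hw : ∀ i, 0 < w i) (t0 : ℝ) :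
    ∃ (φ φ' : ℝ → ℝ) (c : ℝ), (∀ᶠ t in 𝓝 t0, Real.log (pathArea a b w v t) ≤ φ t) ∧
      φ t0 = Real.log (pathArea a b w v t0) ∧ (∀ᶠ t in 𝓝 t0, HasDerivAt φ (φ' t) t) ∧
      HasDerivAt φ' c t0 ∧ c ≤ 0 := by
  classical
  set W : ℝ → ι → ℝ := path w v with hW
  have hWpos : ∀ t i, 0 < W t i := fun t i => mul_pos (hw i) (Real.exp_pos _)
  have hnorm : ∀ i, 0 < a i ^ 2 + b i ^ 2 := by
    intro i
    obtain ⟨j, hj⟩ := hsp i
    rcases eq_or_ne (a i) 0 with h | h
    · rcases eq_or_ne (b i) 0 with h' | h'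
      · simp [h, h'] at hj
      · positivity
    · positivity
  obtain ⟨i0, -, hi0⟩ := (Finset.univ : Finset ι).exists_min_image
    (fun i => W t0 i ^ 2 / (a i ^ 2 + b i ^ 2)) univ_nonempty
  set N := a i0 ^ 2 + b i0 ^ 2 with hN
  have hNp : 0 < N := hnorm i0
  let T : (ℝ × ℝ) ≃ₗ[ℝ] (ℝ × ℝ) :=
    { toFun := fun z => (a i0 * z.1 + b i0 * z.2, -b i0 * z.1 + a i0 * z.2)
      map_add' := fun x y => by ext <;> simp <;> ring
      map_smul' := fun c x => by ext <;> simp <;> ring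
      invFun := fun z => ((a i0 * z.1 - b i0 * z.2) / N, (b i0 * z.1 + a i0 * z.2) / N)
      left_inv := fun z => by
        ext <;> simp only <;> field_simp <;> rw [hN] <;> ring
      right_inv := fun z => by
        ext <;> simp only <;> field_simp <;> rw [hN] <;> ring }
  set α : ι → ℝ := fun j => (a j * a i0 + b j * b i0) / N with hα
  set β : ι → ℝ := fun j => (a i0 * b j - a j * b i0) / N with hβ
  have hrep : ∀ (z : ℝ × ℝ) j, a j * z.1 + b j * z.2 = α j * (T z).1 + β j * (T z).2 := by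
    intro z j
    show _ = α j * (a i0 * z.1 + b i0 * z.2) + β j * (-b i0 * z.1 + a i0 * z.2)
    simp only [hα, hβ]
    field_simp
    rw [hN]
    ring
  have hmin : ∀ j, W t0 i0 ^ 2 * (α j ^ 2 + β j ^ 2) ≤ W t0 j ^ 2 := by
    intro j
    have e : α j ^ 2 + β j ^ 2 = (a j ^ 2 + b j ^ 2) / N := by
      simp only [hα, hβ]; field_simp; rw [hN]; ring
    have h := (div_le_div_iff₀ hNp (hnorm j)).1 (hi0 j (Finset.mem_univ j))
    rw [e, mul_div_assoc', div_le_iff₀ hNp]
    exact h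
  let κ := {j : ι // β j ≠ 0}
  obtain ⟨j1, hj1⟩ := hsp i0
  have hj1β : β j1 ≠ 0 := div_ne_zero hj1 hNp.ne'
  have : Nonempty κ := ⟨⟨j1, hj1β⟩⟩
  let C : κ → ℝ := fun j => -α j.1 / β j.1
  let F : ℝ → κ → ℝ := fun t j => W t j.1 / |β j.1|
  let r : ℝ → ℝ := fun t => W t i0
  have hstrip : ∀ (z : ℝ × ℝ) (t : ℝ) (j : κ),
      (|a j.1 * z.1 + b j.1 * z.2| ≤ W t j.1 ↔ |(T z).2 - C j * (T z).1| ≤ F t j) := by
    intro z t j
    have hj := j.2
    rw [hrep, show α j.1 * (T z).1 + β j.1 * (T z).2 = β j.1 * ((T z).2 - C j * (T z).1) by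
      simp only [C]; field_simp; ring, abs_mul, le_div_iff₀ (abs_pos.2 hj), mul_comm]
  have hfst : ∀ z : ℝ × ℝ, (T z).1 = a i0 * z.1 + b i0 * z.2 := fun z => rfl
  have hsub : ∀ t, strips a b (W t) ⊆ T ⁻¹' slab C (r t) (F t) := fun t z hz =>
    ⟨by rw [hfst]; exact hz i0, fun j => (hstrip z t j).1 (hz j.1)⟩
  have hsup : strips a b (W t0) = T ⁻¹' slab C (r t0) (F t0) := by
    refine (hsub t0).antisymm fun z hz j => ?_
    by_cases hj : β j = 0
    · rw [hrep, hj, zero_mul, add_zero, abs_mul]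
      have h := hmin j
      rw [hj] at h
      have h1 : |α j| * |(T z).1| ≤ |α j| * W t0 i0 :=
        mul_le_mul_of_nonneg_left hz.1 (abs_nonneg _)
      refine h1.trans (abs_le_of_sq_le_sq' ?_ (hWpos t0 j).le).2
      rw [mul_pow, sq_abs]
      linarith
    · exact (hstrip z t0 ⟨j, hj⟩).2 (hz.2 ⟨j, hj⟩)
  have hstrict : ∀ j : κ, |C j| * r t0 < F t0 j := by
    intro j
    have hb := abs_pos.2 j.2
    simp only [C, F, r, abs_div, abs_neg]
    rw [div_mul_eq_mul_div, div_lt_div_iff_of_pos_right hb]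
    refine lt_of_pow_lt_pow_left₀ 2 (hWpos t0 j.1).le ?_
    have h := hmin j.1
    have : 0 < W t0 i0 ^ 2 * β j.1 ^ 2 :=
      mul_pos (pow_pos (hWpos t0 i0) 2) (by positivity [j.2])
    rw [mul_pow, sq_abs]
    linarith
  set K := |LinearMap.det (T.symm : (ℝ × ℝ) →ₗ[ℝ] (ℝ × ℝ))| with hK
  have hKp : 0 < K := abs_pos.2 T.symm.isUnit_det'.ne_zero
  have hvolT : ∀ s : Set (ℝ × ℝ), volume (T ⁻¹' s) = ENNReal.ofReal K * volume s := fun s =>
    Measure.addHaar_preimage_linearEquiv (volume : Measure (ℝ × ℝ)) T s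
  have hr0 : 0 < r t0 := hWpos t0 i0
  obtain ⟨m, σ, P0, hP00, hP0m, hP0lt, hsl, hbr, hlow⟩ :=
    exists_envelope C (F t0) (show -r t0 < r t0 by linarith)
  let γ : ℕ → ℝ := fun k => C (σ k)
  let f : ℝ → ℕ → ℝ := fun t k => F t (σ k)
  let P : ℝ → ℕ → ℝ := fun t k => if k = 0 then -r t
    else if k ≤ m then (f t k - f t (k - 1)) / (γ (k - 1) - γ k) else r t
  have hγ : ∀ k < m, γ (k + 1) < γ k := hsl
  have hchain : ∀ t, IsChain γ m (r t) (f t) (P t) := by
    refine fun t => ⟨hγ, if_pos rfl, ?_, fun k hk => ?_⟩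
    · simp only [P]; rw [if_neg (by omega), if_neg (by omega)]
    · simp only [P]
      rw [if_neg (by omega), if_pos (by omega), Nat.add_sub_cancel]
      field_simp [(sub_pos.2 (hγ k hk)).ne']
  have hPP0 : ∀ k ≤ m + 1, P t0 k = P0 k := by
    intro k hk
    rcases Nat.eq_zero_or_pos k with rfl | hk'
    · rw [(hchain t0).first, hP00]
    rcases eq_or_lt_of_le hk with rfl | hk''
    · rw [(hchain t0).last, hP0m]
    obtain ⟨k, rfl⟩ := Nat.exists_eq_add_one_of_ne_zero hk'.ne'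
    refine mul_left_cancel₀ (sub_pos.2 (hγ k (by omega))).ne' ?_
    rw [(hchain t0).break_eq k (by omega)]
    exact (hbr k (by omega)).symm
  have hWc : ∀ j, Continuous fun t => W t j := fun j => by simp only [hW, path]; fun_prop
  have hfc : ∀ k, Continuous fun t => f t k := fun k => (hWc _).div_const _
  have hrc : Continuous r := hWc i0
  have hPc : ∀ k, Continuous fun t => P t k := by
    intro k
    by_cases h0 : k = 0
    · simp only [P, h0, ↓reduceIte]; exact hrc.neg
    · by_cases hm : k ≤ m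
      · simp only [P, h0, hm, ↓reduceIte]; exact ((hfc k).sub (hfc (k - 1))).div_const _
      · simp only [P, h0, hm, ↓reduceIte]; exact hrc
  have hev1 : ∀ᶠ t in 𝓝 t0, ∀ j, |C j| * r t ≤ F t j := by
    rw [eventually_all]
    intro j
    exact ((continuous_const.mul hrc).continuousAt.eventually_lt ((hWc _).div_const _).continuousAt
      (hstrict j)).mono fun t h => h.le
  have hev2 : ∀ᶠ t in 𝓝 t0, ∀ k : Fin (m + 1), P t k ≤ P t (k + 1) := by
    rw [eventually_all]
    intro k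
    refine ((hPc k).continuousAt.eventually_lt (hPc (k + 1)).continuousAt ?_).mono fun t h => h.le
    rw [hPP0 _ (by omega), hPP0 _ (by omega)]
    exact hP0lt k (Nat.lt_succ_iff.1 k.2)
  set q : ℝ → ℝ := fun t => areaForm γ m (r t) (f t) (r t) (f t) with hq
  have hvol : ∀ t, (∀ j, |C j| * r t ≤ F t j) → 0 ≤ r t →
      volume (T ⁻¹' slab C (r t) (F t)) =
        ENNReal.ofReal (K * (2 * ∫ x in (P t 0)..(P t (m + 1)), upper C (F t) x)) := by
    intro t h1 h2
    rw [hvolT, slab_volume C h2 _ h1, ← ENNReal.ofReal_mul hKp.le, (hchain t).first,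
      (hchain t).last]
  have hsum : ∀ t, 2 * ∑ k ∈ Finset.range (m + 1), (C (σ k) / 2 * (P t (k + 1) ^ 2 - P t k ^ 2) +
      F t (σ k) * (P t (k + 1) - P t k)) = q t := fun t => areaForm_integral (hchain t)
  have hupper : ∀ᶠ t in 𝓝 t0, pathArea a b w v t ≤ K * q t := by
    filter_upwards [hev1, hev2] with t h1 h2
    have hv := hvol t h1 (hWpos t i0).le
    have hle := upper_integral_le C (F t) σ (P t) (m + 1) fun k hk => h2 ⟨k, hk⟩
    have hne : volume (T ⁻¹' slab C (r t) (F t)) ≠ ∞ := by rw [hv]; exact ENNReal.ofReal_ne_top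
    have h3 := ENNReal.toReal_mono hne (measure_mono (μ := volume) (hsub t))
    rw [hv] at h3
    have hI : 0 ≤ ∫ x in (P t 0)..(P t (m + 1)), upper C (F t) x := by
      rw [(hchain t).first, (hchain t).last]
      refine intervalIntegral.integral_nonneg (by linarith [hWpos t i0]) fun x hx =>
        Finset.le_inf' _ _ fun j _ => ?_
      have : |C j * x| ≤ F t j := by
        rw [abs_mul]
        exact (mul_le_mul_of_nonneg_left (abs_le.2 hx) (abs_nonneg _)).trans (h1 j)
      linarith [(abs_le.1 this).1]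
    rw [ENNReal.toReal_ofReal (by positivity)] at h3
    refine h3.trans (mul_le_mul_of_nonneg_left ?_ hKp.le)
    rw [← hsum t]
    linarith
  have hPlt0 : ∀ k ≤ m, P t0 k < P t0 (k + 1) := fun k hk => by
    rw [hPP0 _ (by omega), hPP0 _ (by omega)]; exact hP0lt k hk
  have hfpos : ∀ t k, 0 < f t k := fun t k => div_pos (hWpos t _) (abs_pos.2 (σ k).2)
  have hα0 : 0 < (γ m - γ 0) * r t0 + f t0 0 + f t0 m := by
    have e1 := hstrict (σ m)
    have e2 := hstrict (σ 0)
    have e3 := mul_le_mul_of_nonneg_right (neg_abs_le (C (σ m))) hr0.le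
    have e4 := mul_le_mul_of_nonneg_right (le_abs_self (C (σ 0))) hr0.le
    simp only [γ, f]
    linarith
  let v' : ℕ → ℝ := fun k => v (σ k).1
  obtain ⟨hq0, hcs⟩ := area_second_order (hchain t0) hr0 (fun k _ => hfpos t0 k) hPlt0 hα0 (v i0) v'
  have heq : pathArea a b w v t0 = K * q t0 := by
    rw [pathArea, ← hW, hsup, hvol t0 (fun j => (hstrict j).le) hr0.le]
    have hP' : ∀ k < m + 1, P t0 k ≤ P t0 (k + 1) := fun k hk => (hPlt0 k (by omega)).le
    rw [upper_integral_eq C (F t0) σ (P t0) (m + 1) hP' fun k hk y hy j => ?_, hsum t0]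
    · exact ENNReal.toReal_ofReal (mul_pos hKp hq0).le
    · rw [hPP0 _ (by omega), hPP0 _ (by omega)] at hy
      exact hlow k (Nat.lt_succ_iff.1 hk) y hy j
  -- derivatives
  have hdW : ∀ j t, HasDerivAt (fun t => W t j) (W t j * v j) t := by
    intro j t
    simp only [hW, path]
    exact (((hasDerivAt_id t).mul_const (v j)).exp.const_mul (w j)).congr_deriv (by simp; ring)
  have hdr : ∀ t, HasDerivAt r (r t * v i0) t := fun t => hdW i0 t
  have hdf : ∀ t k, HasDerivAt (fun t => f t k) (f t k * v' k) t := fun t k =>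
    ((hdW (σ k).1 t).div_const _).congr_deriv (div_mul_eq_mul_div ..).symm
  set q1 : ℝ → ℝ := fun t => 2 * areaForm γ m (r t) (f t) (r t * v i0) (fun k => f t k * v' k)
    with hq1
  have hdq : ∀ t, HasDerivAt q (q1 t) t := fun t =>
    (hasDerivAt_areaForm γ m (hdr t) (hdr t) (hdf t) (hdf t)).congr_deriv (by
      rw [areaForm_comm γ m (r t * v i0), hq1]; ring)
  set q2 : ℝ := 2 * areaForm γ m (r t0 * v i0) (fun k => f t0 k * v' k) (r t0 * v i0)
      (fun k => f t0 k * v' k) +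
    2 * areaForm γ m (r t0) (f t0) (r t0 * v i0 ^ 2) (fun k => f t0 k * v' k ^ 2) with hq2
  have hdq1 : HasDerivAt q1 q2 t0 := by
    refine ((hasDerivAt_areaForm γ m (hdr t0) ((hdr t0).mul_const (v i0)) (hdf t0)
      (fun k => (hdf t0 k).mul_const (v' k))).const_mul 2).congr_deriv ?_
    simp only [hq2, mul_assoc, ← pow_two]
    ring
  have hqev : ∀ᶠ t in 𝓝 t0, 0 < q t :=
    continuousAt_const.eventually_lt (hdq t0).continuousAt hq0
  refine ⟨fun t => Real.log K + Real.log (q t), fun t => q1 t / q t,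
    (q2 * q t0 - q1 t0 * q1 t0) / q t0 ^ 2, ?_, ?_, ?_, hdq1.div (hdq t0) hq0.ne', ?_⟩
  · filter_upwards [hupper, hqev] with t h1 h2
    rw [← Real.log_mul hKp.ne' h2.ne']
    obtain ⟨j, hj⟩ := hsp i0
    exact Real.log_le_log (pathArea_pos a b v hj hw t) h1
  · rw [heq, Real.log_mul hKp.ne' hq0.ne']
  · filter_upwards [hqev] with t h2
    exact ((hdq t).log h2.ne').const_add _
  · refine div_nonpos_of_nonpos_of_nonneg ?_ (sq_nonneg _)
    rw [hq2, hq1]
    linarith [hcs]

/-- The logarithmic Brunn-Minkowski inequality for symmetric polygons with common normals. -/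
theorem strips_log_concave [Nonempty ι] (a b : ι → ℝ)
    (hsp : ∀ i, ∃ j, a i * b j - a j * b i ≠ 0) {w v : ι → ℝ} (hw : ∀ i, 0 < w i) {s : ℝ}
    (hs0 : 0 < s) (hs1 : s < 1) :
    (1 - s) * Real.log (pathArea a b w v 0) + s * Real.log (pathArea a b w v 1) ≤
      Real.log (pathArea a b w v s) := by
  obtain ⟨i, j, hij⟩ : ∃ i j, a i * b j - a j * b i ≠ 0 :=
    ⟨Classical.arbitrary ι, hsp (Classical.arbitrary ι)⟩
  set g : ℝ → ℝ := fun t => Real.log (pathArea a b w v t) with hg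
  have hgc : Continuous g := continuous_log_pathArea a b v hij hw
  by_contra hlt
  push Not at hlt
  change g s < (1 - s) * g 0 + s * g 1 at hlt
  set d := (1 - s) * g 0 + s * g 1 - g s with hd
  have hdp : 0 < d := by linarith
  set ε := d / 2 with hε
  set h : ℝ → ℝ := fun t => g t - ((1 - t) * g 0 + t * g 1) + ε * (t * (1 - t)) with hh
  obtain ⟨t0, ht0, hmin⟩ := isCompact_Icc.exists_isMinOn (Set.nonempty_Icc.2 zero_le_one)
    (show ContinuousOn h (Icc 0 1) from (by fun_prop : Continuous h).continuousOn)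
  have hs : h s < 0 := by
    have h2 : s * (1 - s) ≤ 1 := by nlinarith
    simp only [hh]
    nlinarith
  have hval : h t0 < 0 := lt_of_le_of_lt (hmin ⟨hs0.le, hs1.le⟩) hs
  have ht0' : t0 ∈ Ioo (0:ℝ) 1 := by
    refine ⟨lt_of_le_of_ne ht0.1 ?_, lt_of_le_of_ne ht0.2 ?_⟩ <;> rintro rfl <;> simp [hh] at hval
  obtain ⟨φ, φ', c, hle, heq, hder, hder', hc⟩ := exists_barrier a b hsp v hw t0
  set ψ : ℝ → ℝ := fun t => φ t - ((1 - t) * g 0 + t * g 1) + ε * (t * (1 - t)) with hψ
  set ψ' : ℝ → ℝ := fun t => φ' t - (g 1 - g 0) + ε * (1 - 2 * t) with hψ'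
  have hψd : ∀ᶠ t in 𝓝 t0, HasDerivAt ψ (ψ' t) t := by
    filter_upwards [hder] with t ht
    refine ((ht.sub ((((hasDerivAt_id t).const_sub 1).mul_const (g 0)).add
      ((hasDerivAt_id t).mul_const (g 1)))).add
      (((hasDerivAt_id t).mul ((hasDerivAt_id t).const_sub 1)).const_mul ε)).congr_deriv ?_
    simp only [hψ', id]
    ring
  have hψd' : HasDerivAt ψ' (c - 2 * ε) t0 := by
    refine ((hder'.sub_const (g 1 - g 0)).add
      ((((hasDerivAt_id t0).const_mul 2).const_sub 1).const_mul ε)).congr_deriv ?_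
    ring
  have hlmin : IsLocalMin ψ t0 := by
    filter_upwards [hle, Ioo_mem_nhds ht0'.1 ht0'.2] with t h1 h2
    have h3 : h t0 ≤ h t := hmin ⟨h2.1.le, h2.2.le⟩
    simp only [hψ, hh, hg] at h3 ⊢
    rw [heq]
    linarith
  have hdd : deriv (deriv ψ) t0 = c - 2 * ε := by
    rw [Filter.EventuallyEq.deriv_eq (hψd.mono fun t ht => ht.deriv)]
    exact hψd'.deriv
  have hlmax : IsLocalMax ψ t0 := isLocalMax_of_deriv_deriv_neg
    (by rw [hdd]; linarith) hlmin.deriv_eq_zero hψd.self_of_nhds.continuousAt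
  have hconst : ψ =ᶠ[𝓝 t0] fun _ => ψ t0 := by
    filter_upwards [hlmin, hlmax] with t h1 h2
    exact le_antisymm h2 h1
  have : deriv (deriv ψ) t0 = 0 := by
    rw [(hconst.deriv).deriv_eq]
    simp
  linarith [hdd]

end Vale.Agent.P227
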