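import Vale.Agent.P227.Piece
import Vale.Agent.P227.Envelope

/-!
The logarithmic Brunn-Minkowski inequality for symmetric polygons: the area of an intersection
of symmetric strips is log-concave along exponential paths of the widths.
-/

open MeasureTheory Set Filter Finset
open scoped Topology ENNReal Pointwise

namespace Vale.Agent.P227

section Slab

variable {κ : Type} [Fintype κ] [Nonempty κ]

/-- A symmetric polygon with one vertical pair of sides. -/
def slab (C : κ → ℝ) (r : ℝ) (F : κ → ℝ) : Set (ℝ × ℝ) :=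
  {z | |z.1| ≤ r ∧ ∀ j, |z.2 - C j * z.1| ≤ F j}

/-- Its upper boundary. -/
noncomputable def upper (C F : κ → ℝ) (x : ℝ) : ℝ :=
  univ.inf' univ_nonempty (fun j => C j * x + F j)

lemma upper_le (C F : κ → ℝ) (x : ℝ) (j : κ) : upper C F x ≤ C j * x + F j :=
  Finset.inf'_le _ (Finset.mem_univ j)

lemma continuous_upper (C F : κ → ℝ) : Continuous (upper C F) :=
  Continuous.finset_inf'_apply univ_nonempty fun j _ => by fun_prop

lemma slab_volume (C : κ → ℝ) {r : ℝ} (hr : 0 ≤ r) (F : κ → ℝ) (hF : ∀ j, |C j| * r ≤ F j) :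
    volume (slab C r F) = ENNReal.ofReal (2 * ∫ x in -r..r, upper C F x) := by
  have hc : IsClosed (slab C r F) := by
    have e : slab C r F = {z : ℝ × ℝ | |z.1| ≤ r} ∩ ⋂ j, {z : ℝ × ℝ | |z.2 - C j * z.1| ≤ F j} := by
      ext z; simp [slab]
    rw [e]
    exact (isClosed_le (by fun_prop) continuous_const).inter
      (isClosed_iInter fun j => isClosed_le (by fun_prop) continuous_const)
  set g : ℝ → ℝ := fun x => upper C F x + upper C F (-x) with hg
  have hgc : Continuous g := (continuous_upper C F).add ((continuous_upper C F).comp continuous_neg)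
  have hpos : ∀ x ∈ Icc (-r) r, 0 ≤ upper C F x := by
    intro x hx
    refine Finset.le_inf' _ _ fun j _ => ?_
    have : |C j * x| ≤ F j := by
      rw [abs_mul]
      exact (mul_le_mul_of_nonneg_left (abs_le.2 hx) (abs_nonneg _)).trans (hF j)
    linarith [(abs_le.1 this).1]
  have hg0 : ∀ x ∈ Icc (-r) r, 0 ≤ g x := fun x hx =>
    add_nonneg (hpos x hx) (hpos (-x) ⟨by linarith [hx.2], by linarith [hx.1]⟩)
  have hsec : ∀ x, volume (Prod.mk x ⁻¹' slab C r F) =
      (Icc (-r) r).indicator (fun x => ENNReal.ofReal (g x)) x := by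
    intro x
    by_cases hx : x ∈ Icc (-r) r
    · have e : Prod.mk x ⁻¹' slab C r F = Icc (-upper C F (-x)) (upper C F x) := by
        ext y
        simp only [slab, Set.mem_preimage, Set.mem_ofPred_eq, Set.mem_Icc, upper,
          Finset.le_inf'_iff, neg_le (b := y), abs_le]
        exact ⟨fun h => ⟨fun j _ => by linarith [(h.2 j).1], fun j _ => by linarith [(h.2 j).2]⟩,
          fun h => ⟨hx, fun j => ⟨by linarith [h.1 j (Finset.mem_univ j)],
            by linarith [h.2 j (Finset.mem_univ j)]⟩⟩⟩
      rw [e, Real.volume_Icc, indicator_of_mem hx, hg]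
      simp
    · have e : Prod.mk x ⁻¹' slab C r F = ∅ :=
        Set.eq_empty_of_forall_notMem fun y hy => hx (abs_le.1 hy.1)
      rw [e, measure_empty, indicator_of_notMem hx]
  rw [Measure.volume_eq_prod, Measure.prod_apply hc.measurableSet]
  simp only [hsec]
  rw [lintegral_indicator measurableSet_Icc, ← ofReal_integral_eq_lintegral_ofReal
    hgc.integrableOn_Icc ((ae_restrict_mem measurableSet_Icc).mono fun x hx => hg0 x hx),
    integral_Icc_eq_integral_Ioc, ← intervalIntegral.integral_of_le (by linarith), hg]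
  congr 1
  dsimp only
  rw [intervalIntegral.integral_add ((continuous_upper C F).intervalIntegrable _ _)
    ((show Continuous fun x => upper C F (-x) from
      (continuous_upper C F).comp continuous_neg).intervalIntegrable _ _),
    intervalIntegral.integral_comp_neg (upper C F), neg_neg, two_mul]

lemma line_integral (a b c d : ℝ) :
    ∫ x in a..b, (c * x + d) = c / 2 * (b ^ 2 - a ^ 2) + d * (b - a) := by
  rw [intervalIntegral.integral_add ((continuous_const_mul c).intervalIntegrable _ _)
    intervalIntegrable_const, intervalIntegral.integral_const_mul, integral_id,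
    intervalIntegral.integral_const, smul_eq_mul]
  ring

lemma upper_integral_le (C F : κ → ℝ) (σ : ℕ → κ) (P : ℕ → ℝ) (n : ℕ)
    (hP : ∀ k < n, P k ≤ P (k + 1)) :
    ∫ x in (P 0)..(P n), upper C F x ≤ ∑ k ∈ Finset.range n,
      (C (σ k) / 2 * (P (k + 1) ^ 2 - P k ^ 2) + F (σ k) * (P (k + 1) - P k)) := by
  rw [← intervalIntegral.sum_integral_adjacent_intervals
    (fun k _ => (continuous_upper C F).intervalIntegrable _ _)]
  refine Finset.sum_le_sum fun k hk => ?_
  rw [← line_integral]
  exact intervalIntegral.integral_mono_on (hP k (Finset.mem_range.1 hk))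
    ((continuous_upper C F).intervalIntegrable _ _)
    ((by fun_prop : Continuous fun x => C (σ k) * x + F (σ k)).intervalIntegrable _ _)
    (fun x _ => upper_le C F x (σ k))

lemma upper_integral_eq (C F : κ → ℝ) (σ : ℕ → κ) (P : ℕ → ℝ) (n : ℕ)
    (hP : ∀ k < n, P k ≤ P (k + 1))
    (hlow : ∀ k < n, ∀ y ∈ Icc (P k) (P (k + 1)), ∀ j,
      C (σ k) * y + F (σ k) ≤ C j * y + F j) :
    ∫ x in (P 0)..(P n), upper C F x = ∑ k ∈ Finset.range n,
      (C (σ k) / 2 * (P (k + 1) ^ 2 - P k ^ 2) + F (σ k) * (P (k + 1) - P k)) := by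
  rw [← intervalIntegral.sum_integral_adjacent_intervals
    (fun k _ => (continuous_upper C F).intervalIntegrable _ _)]
  refine Finset.sum_congr rfl fun k hk => ?_
  rw [← line_integral]
  refine intervalIntegral.integral_congr fun x hx => ?_
  rw [uIcc_of_le (hP k (Finset.mem_range.1 hk))] at hx
  exact le_antisymm (upper_le C F x (σ k))
    (Finset.le_inf' _ _ fun j _ => hlow k (Finset.mem_range.1 hk) x hx j)

end Slab

variable {ι : Type} [Fintype ι]

/-- The intersection of the symmetric strips with normals `(a i, b i)` and widths `W i`. -/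
def strips (a b W : ι → ℝ) : Set (ℝ × ℝ) :=
  {z | ∀ i, |a i * z.1 + b i * z.2| ≤ W i}

omit [Fintype ι] in
lemma isClosed_strips (a b W : ι → ℝ) : IsClosed (strips a b W) := by
  have e : strips a b W = ⋂ i, {z : ℝ × ℝ | |a i * z.1 + b i * z.2| ≤ W i} := by
    ext z; simp [strips]
  rw [e]
  exact isClosed_iInter fun i => isClosed_le (by fun_prop) continuous_const

omit [Fintype ι] in
lemma strips_bounded (a b W : ι → ℝ) {i j : ι} (h : a i * b j - a j * b i ≠ 0) :
    IsCompact (strips a b W) := by
  set D := |a i * b j - a j * b i| with hD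
  have hDp : 0 < D := abs_pos.2 h
  refine (isCompact_Icc (a := -((|b j| * W i + |b i| * W j) / D))
    (b := (|b j| * W i + |b i| * W j) / D) |>.prod
    (isCompact_Icc (a := -((|a j| * W i + |a i| * W j) / D))
      (b := (|a j| * W i + |a i| * W j) / D))).of_isClosed_subset (isClosed_strips a b W) ?_
  rintro ⟨x, y⟩ hz
  have hi := hz i
  have hj := hz j
  have h1 : |x| * D ≤ |b j| * W i + |b i| * W j := by
    rw [hD, ← abs_mul, show x * (a i * b j - a j * b i) =
      b j * (a i * x + b i * y) - b i * (a j * x + b j * y) by ring]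
    refine (abs_sub _ _).trans ?_
    rw [abs_mul, abs_mul]
    gcongr
  have h2 : |y| * D ≤ |a j| * W i + |a i| * W j := by
    rw [hD, ← abs_mul, show y * (a i * b j - a j * b i) =
      -(a j * (a i * x + b i * y)) + a i * (a j * x + b j * y) by ring]
    refine (abs_add_le _ _).trans ?_
    rw [abs_neg, abs_mul, abs_mul]
    gcongr
  exact ⟨abs_le.1 ((le_div_iff₀ hDp).2 h1), abs_le.1 ((le_div_iff₀ hDp).2 h2)⟩

/-- An exponential path of widths. -/
noncomputable def path (w v : ι → ℝ) (t : ℝ) : ι → ℝ := fun i => w i * Real.exp (t * v i)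

/-- The area along an exponential path. -/
noncomputable def pathArea (a b w v : ι → ℝ) (t : ℝ) : ℝ :=
  (volume (strips a b (path w v t))).toReal

lemma pathArea_pos (a b : ι → ℝ) {w : ι → ℝ} (v : ι → ℝ) {i j : ι}
    (h : a i * b j - a j * b i ≠ 0) (hw : ∀ i, 0 < w i) (t : ℝ) : 0 < pathArea a b w v t := by
  refine ENNReal.toReal_pos ?_ (strips_bounded a b _ h).measure_lt_top.ne
  have hsub : ⋂ k, {z : ℝ × ℝ | |a k * z.1 + b k * z.2| < path w v t k} ⊆
      strips a b (path w v t) := fun z hz k => by
    have := Set.mem_iInter.1 hz k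
    exact (le_of_lt this)
  have hopen : IsOpen (⋂ k, {z : ℝ × ℝ | |a k * z.1 + b k * z.2| < path w v t k}) :=
    isOpen_iInter_of_finite fun k => isOpen_lt (by fun_prop) continuous_const
  have hne : (⋂ k, {z : ℝ × ℝ | |a k * z.1 + b k * z.2| < path w v t k}).Nonempty :=
    ⟨0, Set.mem_iInter.2 fun k => by simp [path, mul_pos (hw k) (Real.exp_pos _)]⟩
  exact ((hopen.measure_pos volume hne).trans_le (measure_mono hsub)).ne'

lemma pathArea_scale (a b : ι → ℝ) {w : ι → ℝ} (v : ι → ℝ) {i j : ι}
    (h : a i * b j - a j * b i ≠ 0) (hw : ∀ i, 0 < w i) (s t : ℝ) :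
    Real.exp (-((∑ k, |v k|) * |t - s|)) ^ 2 * pathArea a b w v s ≤ pathArea a b w v t := by
  set c := Real.exp (-((∑ k, |v k|) * |t - s|)) with hc
  have hcpos : 0 < c := Real.exp_pos _
  have hsub : c • strips a b (path w v s) ⊆ strips a b (path w v t) := by
    rintro _ ⟨z, hz, rfl⟩ k
    have hk : c * path w v s k ≤ path w v t k := by
      have h1 : |v k| ≤ ∑ k, |v k| :=
        Finset.single_le_sum (fun k _ => abs_nonneg (v k)) (Finset.mem_univ k)
      have h2 : -((∑ k, |v k|) * |t - s|) + s * v k ≤ t * v k := by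
        have h3 := mul_le_mul_of_nonneg_right h1 (abs_nonneg (t - s))
        have h4 : -(|v k| * |t - s|) ≤ (t - s) * v k := by
          rw [← abs_mul, mul_comm (v k)]; exact neg_abs_le _
        linarith
      calc c * path w v s k = w k * Real.exp (-((∑ k, |v k|) * |t - s|) + s * v k) := by
            rw [Real.exp_add, hc, path]; ring
        _ ≤ path w v t k := mul_le_mul_of_nonneg_left (Real.exp_le_exp.2 h2) (hw k).le
    show |a k * (c * z.1) + b k * (c * z.2)| ≤ _
    rw [show a k * (c * z.1) + b k * (c * z.2) = c * (a k * z.1 + b k * z.2) by ring, abs_mul,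
      abs_of_pos hcpos]
    exact (mul_le_mul_of_nonneg_left (hz k) hcpos.le).trans hk
  have := ENNReal.toReal_mono (strips_bounded a b _ h).measure_lt_top.ne
    (measure_mono (μ := volume) hsub)
  rw [Measure.addHaar_smul, ENNReal.toReal_mul, ENNReal.toReal_ofReal (abs_nonneg _)] at this
  simpa [pathArea, abs_of_nonneg hcpos.le] using this

lemma continuous_log_pathArea (a b : ι → ℝ) {w : ι → ℝ} (v : ι → ℝ) {i j : ι}
    (h : a i * b j - a j * b i ≠ 0) (hw : ∀ i, 0 < w i) :
    Continuous fun t => Real.log (pathArea a b w v t) := by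
  set L := 2 * ∑ k, |v k| with hL
  have hL0 : 0 ≤ L := by positivity
  have key : ∀ s t, Real.log (pathArea a b w v s) - L * |t - s| ≤
      Real.log (pathArea a b w v t) := by
    intro s t
    have hs := pathArea_pos a b v h hw s
    have := Real.log_le_log (mul_pos (pow_pos (Real.exp_pos _) 2) hs)
      (pathArea_scale a b v h hw s t)
    rw [Real.log_mul (pow_pos (Real.exp_pos _) 2).ne' hs.ne', Real.log_pow, Real.log_exp] at this
    rw [hL]
    push_cast at this
    linarith
  refine LipschitzWith.continuous (K := ⟨L, hL0⟩) (LipschitzWith.of_dist_le_mul fun s t => ?_)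
  have h1 := key s t
  have h2 := key t s
  rw [abs_sub_comm t s] at h1
  rw [Real.dist_eq, Real.dist_eq, abs_le]
  show -(L * |s - t|) ≤ _ ∧ _ ≤ L * |s - t|
  constructor <;> linarith

lemma hasDerivAt_areaForm (γ : ℕ → ℝ) (m : ℕ) {r s : ℝ → ℝ} {f g : ℝ → ℕ → ℝ} {r' s' : ℝ}
    {f' g' : ℕ → ℝ} {t : ℝ} (hr : HasDerivAt r r' t) (hs : HasDerivAt s s' t)
    (hf : ∀ k, HasDerivAt (fun t => f t k) (f' k) t)
    (hg : ∀ k, HasDerivAt (fun t => g t k) (g' k) t) :
    HasDerivAt (fun t => areaForm γ m (r t) (f t) (s t) (g t))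
      (areaForm γ m r' f' (s t) (g t) + areaForm γ m (r t) (f t) s' g') t := by
  have h1 := (((hr.const_mul (γ m - γ 0)).mul hs).add (((hf 0).add (hf m)).mul hs)).add
    (((hg 0).add (hg m)).mul hr)
  have h2 := HasDerivAt.fun_sum (u := Finset.range m) fun k _ =>
    (((hf (k + 1)).sub (hf k)).mul ((hg (k + 1)).sub (hg k))).div_const (γ k - γ (k + 1))
  refine (h1.sub h2).congr_deriv ?_
  simp only [areaForm, add_div, Finset.sum_add_distrib, Pi.add_apply, Pi.sub_apply]
  ring

lemma areaForm_comm (γ : ℕ → ℝ) (m : ℕ) (r r' : ℝ) (f g : ℕ → ℝ) :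
    areaForm γ m r f r' g = areaForm γ m r' g r f := by
  simp only [areaForm]
  rw [Finset.sum_congr rfl fun k _ => by rw [mul_comm (f (k + 1) - f k)]]
  ring

end Vale.Agent.P227
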